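import Vale.Agent.P369.H973.FinBound
import Vale.Agent.P369.H809.Defs
import Vale.Agent.P369.H400.VecDefs

/-!
P369 (helper973): box compressions of infinite matrices.
-/

namespace Vale.Agent.P369Z

open Matrix
open Vale.Agent.P369V
open Vale.Agent.P369 (Conf)
open Vale.Agent.P369A (Ker)

noncomputable section

variable {n : ℕ}

/-- the compression of an infinite matrix to at most `N` photons in each mode -/
def boxm (N : ℕ) (T : Ker n) : Matrix (Cf n N) (Cf n N) ℂ := fun k k' => T (cv k) (cv k')

end

end Vale.Agent.P369Z
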