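import Vale.Agent.P369.H973.FinU

/-!
P369 (helper973): the loss-path inequality with mode-dependent references for faithful states
with a photon number cutoff.
-/

namespace Vale.Agent.P369Z

open Matrix MeasureTheory Set Filter Topology
open scoped ComplexOrder
open Vale.Agent.P369V
open Vale.Agent.P369 (Conf)
open Vale.Agent.P369N (bb cm)

noncomputable section

variable {n M : ℕ}

theorem modeFam_loss {ρ : Matrix (Cf n M) (Cf n M) ℂ} (hρ : ρ.PosDef) (htr : ρ.trace = 1)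
    (j : Fin n) : ModeFam (fun t ν : ℝ => gj n M ν (loss n M t ρ) j) where
  cont := gj_cont hρ j
  pos := fun _ ht _ hν => gj_pos hν (loss_posDef ht.1 ht.2 hρ) j
  conv := fun _ ht _ h0 _ h1 _ _ _ _ _ hs0 hs1 => gj_conv (loss_posDef ht.1 ht.2 hρ) j h0 h1 hs0 hs1
  dp := fun t ht ν hν r _ => by
    simp only [loss_one]
    exact dp_j ht hν hρ htr j
  sa := fun _ hl _ _ hx hy hxy => sa_j hρ htr j hl hx hy hxy

theorem Jm_sum (hn : 1 ≤ n) {ρ : Matrix (Cf n M) (Cf n M) ℂ} (hρ : ρ.PosDef) (htr : ρ.trace = 1) :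
    Jm n M ρ = ∑ j, (1 - ∫ ν in (0 : ℝ)..1, gj n M ν ρ j) := by
  have hn' : (n : ℝ) ≠ 0 := by
    have : (0 : ℝ) < n := by exact_mod_cast (lt_of_lt_of_le Nat.zero_lt_one hn)
    exact this.ne'
  have hi : ∀ j : Fin n, IntervalIntegrable (fun ν => gj n M ν ρ j) volume 0 1 := fun j => by
    refine ContinuousOn.intervalIntegrable ?_
    rw [uIcc_of_le zero_le_one]
    exact gj_cont_nu hρ j
  rw [Jm_eq hn hρ htr]
  have h1 : ∀ ν, gf n M ν ρ = (∑ j, gj n M ν ρ j) / n := by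
    intro ν
    unfold gf gj ctop FF tj Fj
    rw [Finset.sum_add_distrib, ← Finset.mul_sum]
  simp only [h1]
  rw [intervalIntegral.integral_div, intervalIntegral.integral_finsetSum fun j _ => hi j]
  simp only [Finset.sum_sub_distrib, Finset.sum_const, Finset.card_univ, Fintype.card_fin,
    nsmul_eq_mul, mul_one]
  field_simp

theorem hasDerivAt_ent_loss (hn : 1 ≤ n) {ρ : Matrix (Cf n M) (Cf n M) ℂ} (hρ : ρ.PosDef)
    (htr : ρ.trace = 1) {t : ℝ} (ht : t ∈ Ioo (0 : ℝ) 1) :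
    HasDerivAt (fun t => ent (loss n M t ρ))
      (∑ j, (1 - ∫ ν in (0 : ℝ)..1, gj n M ν (loss n M t ρ) j) / t) t := by
  have hn' : (n : ℝ) ≠ 0 := by
    have : (0 : ℝ) < n := by exact_mod_cast (lt_of_lt_of_le Nat.zero_lt_one hn)
    exact this.ne'
  have h1 := (f1_hasDerivAt (n := n) (M := M) hρ ht).mul_const (n : ℝ)
  rw [Jm_sum hn (loss_posDef ht.1 ht.2.le hρ) (by rw [trace_loss ht.1.le ht.2.le, htr])] at h1
  rw [← Finset.sum_div]
  have e : (fun t => ent (loss n M t ρ)) = fun t => ent (loss n M t ρ) / n * n := by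
    funext t
    field_simp
  rw [e]
  refine h1.congr_deriv ?_
  field_simp

theorem ent_diff (hn : 1 ≤ n) {ρ : Matrix (Cf n M) (Cf n M) ℂ} (hρ : ρ.PosDef) (htr : ρ.trace = 1)
    {ε : ℝ} (hε : ε ∈ Ioo (0 : ℝ) 1) :
    ∑ j, Pg (fun t ν : ℝ => gj n M ν (loss n M t ρ) j) ε = ent ρ - ent (loss n M ε ρ) := by
  have hεI : ε ∈ Ioc (0 : ℝ) 1 := ⟨hε.1, hε.2.le⟩
  have hi : ∀ j : Fin n, IntervalIntegrable (fun t => (1 - ∫ ν in (0 : ℝ)..1,
      gj n M ν (loss n M t ρ) j) / t) volume ε 1 := fun j =>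
    (modeFam_loss hρ htr j).phi_int hεI ⟨one_pos, le_rfl⟩
  have h1 := intervalIntegral.integral_eq_sub_of_hasDerivAt_of_le (a := ε) (b := 1)
    (f := fun t => ent (loss n M t ρ))
    (f' := fun t => ∑ j, (1 - ∫ ν in (0 : ℝ)..1, gj n M ν (loss n M t ρ) j) / t) hε.2.le
    ((continuousOn_ent (f1_continuous_loss ρ).continuousOn
      (fun t _ => loss_posSemidef hρ.posSemidef)))
    (fun t ht => hasDerivAt_ent_loss hn hρ htr ⟨lt_trans hε.1 ht.1, ht.2⟩)
    (by
      have := IntervalIntegrable.sum Finset.univ (f := fun j t => (1 - ∫ ν in (0 : ℝ)..1,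
        gj n M ν (loss n M t ρ) j) / t) (fun j _ => hi j)
      simpa only [Finset.sum_fn] using this)
  rw [intervalIntegral.integral_finsetSum fun j _ => hi j] at h1
  simp only [loss_one] at h1
  exact h1

/-- the loss-path inequality with mode-dependent references, finite cutoff -/
theorem fin_bound (hn : 1 ≤ n) {ρ : Matrix (Cf n M) (Cf n M) ℂ} (hρ : ρ.PosDef) (htr : ρ.trace = 1)
    {r : Fin n → ℝ} (hr : ∀ j, 0 < r j) {δ : ℝ} (hδ : δ ∈ Ioc (0 : ℝ) 1) :
    ∑ j, (P369.g (r j) - min (-(1 - ∫ ν in (0 : ℝ)..1, gj n M ν ρ j) +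
        r j * (∫ ν in δ..1, gj n M ν ρ j / ν) + 4 * Real.sqrt (r j * δ))
        (cm (r j) * (r j * bb (r j) - (1 - ∫ ν in (0 : ℝ)..1, gj n M ν ρ j)))) ≤ ent ρ := by
  refine le_of_forall_pos_le_add fun e he => ?_
  have hn0 : (0 : ℝ) < n := by exact_mod_cast (lt_of_lt_of_le Nat.zero_lt_one hn)
  have he' : 0 < e / n := by positivity
  have hev : ∀ᶠ ε in 𝓝[>] (0 : ℝ), ∀ j : Fin n, P369.g (r j) -
      min (-(1 - ∫ ν in (0 : ℝ)..1, gj n M ν ρ j) + r j * (∫ ν in δ..1, gj n M ν ρ j / ν) +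
        4 * Real.sqrt (r j * δ)) (cm (r j) * (r j * bb (r j) -
          (1 - ∫ ν in (0 : ℝ)..1, gj n M ν ρ j))) - e / n ≤
      Pg (fun t ν : ℝ => gj n M ν (loss n M t ρ) j) ε := by
    rw [eventually_all]
    intro j
    have h := (modeFam_loss hρ htr j).mode_min (hr j) hδ he'
    simpa only [loss_one] using h
  obtain ⟨ε, h1, h2⟩ := (hev.and (Ioo_mem_nhdsGT (zero_lt_one (α := ℝ)))).exists
  have h3 := Finset.sum_le_sum fun j (_ : j ∈ (Finset.univ : Finset (Fin n))) => h1 j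
  rw [ent_diff hn hρ htr h2, Finset.sum_sub_distrib] at h3
  simp only [Finset.sum_const, Finset.card_univ, Fintype.card_fin, nsmul_eq_mul] at h3
  have h4 : (n : ℝ) * (e / n) = e := by field_simp
  rw [h4] at h3
  have h5 := ent_nonneg (loss_posSemidef (n := n) (M := M) (x := ε) hρ.posSemidef)
    (by rw [trace_loss h2.1.le h2.2.le, htr])
  linarith

end

end Vale.Agent.P369Z
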