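import Vale.Agent.P369.H973.IsoDiff

/-!
P369, finite part of the loss-path inequality with mode-dependent references (helper973):
the per-mode functionals of a faithful state with a photon number cutoff, and their properties
along the common loss path.
-/

namespace Vale.Agent.P369Z

open Matrix MeasureTheory Set Filter Topology
open scoped Kronecker InnerProductSpace ComplexOrder
open Vale.Agent.P369V
open Vale.Agent.P369 (Conf)

noncomputable section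

variable {n M : ℕ}

/-- boundary term of mode `j` -/
def tj (n M : ℕ) (ρ : Matrix (Cf n M) (Cf n M) ℂ) (j : Fin n) : ℝ :=
  ∑ k : Cf n M, if (k j : ℕ) = M then ((M : ℝ) + 1) * (ρ k k).re else 0

/-- truncated Fisher information of mode `j` -/
def Fj (n M : ℕ) (ν : ℝ) (ρ : Matrix (Cf n M) (Cf n M) ℂ) (j : Fin n) : ℝ :=
  Qf ν ρ (ann n M j * ρ - ρ * ann n M j)

/-- `g_j(ν) = t_j + ν F_j(ν)` -/
def gj (n M : ℕ) (ν : ℝ) (ρ : Matrix (Cf n M) (Cf n M) ℂ) (j : Fin n) : ℝ :=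
  tj n M ρ j + ν * Fj n M ν ρ j

/-- mean photon number of mode `j` -/
def enj (n M : ℕ) (ρ : Matrix (Cf n M) (Cf n M) ℂ) (j : Fin n) : ℝ :=
  (ρ * ((ann n M j)ᴴ * ann n M j)).trace.re

theorem tj_eq (ρ : Matrix (Cf n M) (Cf n M) ℂ) (j : Fin n) :
    tj n M ρ j = (ρ * ((ann n M j)ᴴ * ann n M j + 1 - ann n M j * (ann n M j)ᴴ)).trace.re := by
  unfold tj
  rw [e4_num, e4_num']
  have h1 : (Matrix.diagonal (fun k : Cf n M => (((k j : ℕ) : ℝ) : ℂ)) + 1 -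
      Matrix.diagonal (fun k : Cf n M => if (k j : ℕ) = M then 0
        else ((((k j : ℕ) : ℝ) + 1 : ℝ) : ℂ))) =
      Matrix.diagonal (fun k : Cf n M => if (k j : ℕ) = M then (((M : ℝ) + 1 : ℝ) : ℂ) else 0) := by
    rw [← Matrix.diagonal_one, Matrix.diagonal_add, Matrix.diagonal_sub]
    congr 1
    funext k
    by_cases hk : (k j : ℕ) = M
    · simp only [hk, Complex.ofReal_natCast, ↓reduceIte, sub_zero, Complex.ofReal_add, Complex.ofReal_one]
    · simp only [Complex.ofReal_natCast, hk, ↓reduceIte, Complex.ofReal_add, Complex.ofReal_one, sub_self]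
  rw [h1, Matrix.trace, Complex.re_sum]
  refine Finset.sum_congr rfl fun k _ => ?_
  rw [Matrix.diag_apply, Matrix.mul_diagonal]
  by_cases hk : (k j : ℕ) = M
  · rw [if_pos hk, if_pos hk, Complex.re_mul_ofReal]
    ring
  · rw [if_neg hk, if_neg hk, mul_zero, Complex.zero_re]

theorem tj_pos {ρ : Matrix (Cf n M) (Cf n M) ℂ} (hρ : ρ.PosDef) (j : Fin n) : 0 < tj n M ρ j := by
  have hd : ∀ k, 0 < (ρ k k).re := fun k => by
    have := hρ.diag_pos (i := k)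
    exact (Complex.lt_def.1 this).1
  unfold tj
  apply Finset.sum_pos'
  · intro k _
    split_ifs
    · have := hd k
      positivity
    · exact le_rfl
  · refine ⟨fun _ => Fin.last M, Finset.mem_univ _, ?_⟩
    rw [if_pos (by simp)]
    have := hd (fun _ => Fin.last M)
    positivity

theorem Fj_nonneg {ν : ℝ} (hν : ν ∈ Icc (0 : ℝ) 1) {ρ : Matrix (Cf n M) (Cf n M) ℂ} (hρ : ρ.PosDef)
    (j : Fin n) : 0 ≤ Fj n M ν ρ j := e1_Qf_nonneg hν hρ _

theorem gj_pos {ν : ℝ} (hν : ν ∈ Icc (0 : ℝ) 1) {ρ : Matrix (Cf n M) (Cf n M) ℂ} (hρ : ρ.PosDef)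
    (j : Fin n) : 0 < gj n M ν ρ j := by
  have h1 := tj_pos hρ j
  have h2 := mul_nonneg hν.1 (Fj_nonneg hν hρ j)
  unfold gj
  linarith

theorem gj_div {ν : ℝ} (hν : 0 < ν) (ρ : Matrix (Cf n M) (Cf n M) ℂ) (j : Fin n) :
    gj n M ν ρ j / ν = tj n M ρ j / ν + Fj n M ν ρ j := by
  unfold gj
  field_simp

theorem gj_conv {ρ : Matrix (Cf n M) (Cf n M) ℂ} (hρ : ρ.PosDef) (j : Fin n) {ν₀ ν₁ w₀ w₁ s : ℝ}
    (h0 : ν₀ ∈ Ioc (0 : ℝ) 1) (h1 : ν₁ ∈ Ioc (0 : ℝ) 1) (hs0 : 0 ≤ s) (hs1 : s ≤ 1) :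
    ((1 - s) * w₀ + s * w₁) ^ 2 * (gj n M ((1 - s) * ν₀ + s * ν₁) ρ j / ((1 - s) * ν₀ + s * ν₁)) ≤
      (1 - s) * (w₀ ^ 2 * (gj n M ν₀ ρ j / ν₀)) + s * (w₁ ^ 2 * (gj n M ν₁ ρ j / ν₁)) := by
  have hs : 0 ≤ 1 - s := by linarith only [hs1]
  have hν : 0 < (1 - s) * ν₀ + s * ν₁ := by
    rcases hs0.eq_or_lt with h | h
    · rw [← h]; simpa only [sub_zero, one_mul, zero_mul, add_zero] using h0.1
    · have : 0 < s * ν₁ := mul_pos h h1.1
      have : 0 ≤ (1 - s) * ν₀ := mul_nonneg hs h0.1.le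
      linarith
  rw [gj_div hν, gj_div h0.1, gj_div h1.1]
  have hc := f1_cs (c := tj n M ρ j) (w₀ := w₀) (w₁ := w₁) (tj_pos hρ j).le h0.1 h1.1 hs0 hs1
  have hF := Qf_joint_convex hρ (ann n M j * ρ - ρ * ann n M j) (w₀ := w₀) (w₁ := w₁)
    ⟨h0.1.le, h0.2⟩ ⟨h1.1.le, h1.2⟩ hs0 hs1
  unfold Fj
  linarith

theorem gj_cont {ρ : Matrix (Cf n M) (Cf n M) ℂ} (hρ : ρ.PosDef) (j : Fin n) :
    ContinuousOn (Function.uncurry (fun t ν : ℝ => gj n M ν (loss n M t ρ) j))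
      (Ioc (0 : ℝ) 1 ×ˢ Icc (0 : ℝ) 1) := by
  have hL : Continuous (fun p : ℝ × ℝ => loss n M p.1 ρ) := (f1_continuous_loss ρ).comp continuous_fst
  have hF : ContinuousOn (fun p : ℝ × ℝ => Qf p.2 (loss n M p.1 ρ)
      (ann n M j * loss n M p.1 ρ - loss n M p.1 ρ * ann n M j)) (Ioc (0 : ℝ) 1 ×ˢ Icc (0 : ℝ) 1) := by
    have hm : Continuous (fun p : ℝ × ℝ =>
        ((p.2, loss n M p.1 ρ, ann n M j * loss n M p.1 ρ - loss n M p.1 ρ * ann n M j) :
          ℝ × Matrix (Cf n M) (Cf n M) ℂ × Matrix (Cf n M) (Cf n M) ℂ)) := by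
      refine continuous_snd.prodMk (hL.prodMk ?_)
      exact (continuous_const.matrix_mul hL).sub (hL.matrix_mul continuous_const)
    have := (continuousOn_Qf (ι := Cf n M)).comp hm.continuousOn (s := Ioc (0 : ℝ) 1 ×ˢ Icc (0 : ℝ) 1) (by
      intro p hp
      exact ⟨hp.2, loss_posDef hp.1.1 hp.1.2 hρ, trivial⟩)
    exact this
  have hC : Continuous (fun p : ℝ × ℝ => tj n M (loss n M p.1 ρ) j) := by
    unfold tj
    apply continuous_finsetSum
    intro k _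
    split_ifs
    · exact continuous_const.mul (Complex.continuous_re.comp (hL.matrix_elem k k))
    · exact continuous_const
  unfold Function.uncurry gj Fj
  exact hC.continuousOn.add (continuous_snd.continuousOn.mul hF)

theorem gj_cont_nu {ρ : Matrix (Cf n M) (Cf n M) ℂ} (hρ : ρ.PosDef) (j : Fin n) :
    ContinuousOn (fun ν : ℝ => gj n M ν ρ j) (Icc (0 : ℝ) 1) := by
  have h := (gj_cont hρ j).comp (f := fun l : ℝ => ((1 : ℝ), l)) (s := Icc (0 : ℝ) 1) (by fun_prop)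
    (fun l hl => ⟨⟨one_pos, le_rfl⟩, hl⟩)
  refine h.congr fun ν _ => ?_
  change gj n M ν ρ j = gj n M ν (loss n M 1 ρ) j
  rw [loss_one]

theorem enj_loss {x : ℝ} (h0 : 0 ≤ x) (h1 : x ≤ 1) (ρ : Matrix (Cf n M) (Cf n M) ℂ) (j : Fin n) :
    enj n M (loss n M x ρ) j = x * enj n M ρ j := by
  unfold enj
  set a := ann n M j with ha
  set J := bsJ n M x with hJ
  have e1 : (loss n M x ρ * (aᴴ * a)).trace = (x : ℂ) * (ρ * (aᴴ * a)).trace := by
    rw [loss, d3_trace_ptr, ← hJ]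
    have e2 : (aᴴ * a) ⊗ₖ (1 : Matrix (Cf n M) (Cf n M) ℂ) =
        (a ⊗ₖ (1 : Matrix (Cf n M) (Cf n M) ℂ))ᴴ * (a ⊗ₖ (1 : Matrix (Cf n M) (Cf n M) ℂ)) := by
      rw [Matrix.conjTranspose_kronecker, ← Matrix.mul_kronecker_mul, conjTranspose_one, Matrix.one_mul]
    have e3 : (a ⊗ₖ (1 : Matrix (Cf n M) (Cf n M) ℂ)) * J = (Real.sqrt x : ℂ) • (J * a) :=
      ann_bsJ h0 h1 j
    have e4 : Jᴴ * (a ⊗ₖ (1 : Matrix (Cf n M) (Cf n M) ℂ))ᴴ = (Real.sqrt x : ℂ) • (aᴴ * Jᴴ) := by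
      rw [← conjTranspose_mul, e3, conjTranspose_smul, conjTranspose_mul, Complex.star_def,
        Complex.conj_ofReal]
    rw [e2]
    have e5 : (J * ρ * Jᴴ * ((a ⊗ₖ (1 : Matrix (Cf n M) (Cf n M) ℂ))ᴴ *
        (a ⊗ₖ (1 : Matrix (Cf n M) (Cf n M) ℂ)))).trace =
        (ρ * (Jᴴ * (a ⊗ₖ (1 : Matrix (Cf n M) (Cf n M) ℂ))ᴴ *
        ((a ⊗ₖ (1 : Matrix (Cf n M) (Cf n M) ℂ)) * J))).trace := by
      rw [Matrix.mul_assoc, Matrix.mul_assoc, Matrix.trace_mul_comm]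
      simp only [Matrix.mul_assoc]
    have e6 : aᴴ * Jᴴ * (J * a) = aᴴ * a := by
      rw [Matrix.mul_assoc, ← Matrix.mul_assoc Jᴴ, bsJ_isometry h0 h1, Matrix.one_mul]
    have e7 : Jᴴ * (a ⊗ₖ (1 : Matrix (Cf n M) (Cf n M) ℂ))ᴴ *
        ((a ⊗ₖ (1 : Matrix (Cf n M) (Cf n M) ℂ)) * J) = (x : ℂ) • (aᴴ * a) := by
      rw [e4, e3, Matrix.smul_mul, Matrix.mul_smul, smul_smul, e6, ← Complex.ofReal_mul,
        Real.mul_self_sqrt h0]
    rw [e5, e7, Matrix.mul_smul, Matrix.trace_smul, smul_eq_mul]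
  rw [e1, Complex.re_ofReal_mul]

theorem dp_j {t ν r : ℝ} (ht : t ∈ Ioc (0 : ℝ) 1) (hν : ν ∈ Ioc (0 : ℝ) 1)
    {ρ : Matrix (Cf n M) (Cf n M) ℂ} (hρ : ρ.PosDef) (htr : ρ.trace = 1) (j : Fin n) :
    (ν + t * r) ^ 2 * (gj n M ν (loss n M t ρ) j / ν) ≤
      (1 - t) * ν + t * ((ν + r) ^ 2 * (gj n M ν ρ j / ν)) := by
  have hC : (loss n M t ρ).PosDef := loss_posDef ht.1 ht.2 hρ
  have htC : (loss n M t ρ).trace = 1 := by rw [trace_loss ht.1.le ht.2, htr]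
  have hν0 := hν.1
  have h := e4_step (r := r) (inc_isometry (n := n) (M := M)) (ann_inc j) (bsJ_isometry ht.1.le ht.2)
    (bsJ_inc ht.1.le ht.2) ht.1 ht.2 (ann_bsJ ht.1.le ht.2 j) (ann_bsJ' ht.1.le ht.2 j)
    (by
      have := cre_bsJ (n := n) (M := M) ht.1.le ht.2 j
      simpa only [Matrix.mul_assoc] using this) hρ rfl hC hν
  rw [e4_G_sq (inc_isometry (n := n) (M := M)) (ann_inc j) (ccr_inc j)] at h
  have e1 := e4_expand hC htC hν (t * r) (b := ann n M j)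
  have e2 := e4_expand hρ htr hν r (b := ann n M j)
  change Qf ν (loss n M t ρ) _ + _ ≤ _ at h
  rw [e2] at h
  have h' := h
  change Qf ν (loss n M t ρ) (ann n M j * loss n M t ρ + ((t * r : ℝ) : ℂ) •
    (ann n M j * loss n M t ρ - loss n M t ρ * ann n M j)) + _ ≤ _ at h'
  rw [e1] at h'
  have hen := enj_loss ht.1.le ht.2 ρ j
  unfold enj at hen
  change (loss n M t ρ * _).trace.re - _ + _ + (t * r) ^ 2 / ν * (loss n M t ρ * _).trace.re ≤ _ at h'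
  rw [← tj_eq, ← tj_eq, hen] at h'
  rw [gj_div hν0, gj_div hν0]
  unfold Fj
  have a1 : (ν + t * r) ^ 2 * (tj n M (loss n M t ρ) j / ν + Qf ν (loss n M t ρ)
      (ann n M j * loss n M t ρ - loss n M t ρ * ann n M j)) =
      (ν + 2 * (t * r)) * tj n M (loss n M t ρ) j +
        (t * r) ^ 2 / ν * tj n M (loss n M t ρ) j +
        (ν + t * r) ^ 2 * Qf ν (loss n M t ρ)
      (ann n M j * loss n M t ρ - loss n M t ρ * ann n M j) := by
    field_simp
    ring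
  have a2 : (ν + r) ^ 2 * (tj n M ρ j / ν + Qf ν ρ (ann n M j * ρ - ρ * ann n M j)) =
      (ν + 2 * r) * tj n M ρ j + r ^ 2 / ν * tj n M ρ j +
        (ν + r) ^ 2 * Qf ν ρ (ann n M j * ρ - ρ * ann n M j) := by
    field_simp
    ring
  rw [a1, a2]
  linarith

theorem sa_j {ρ : Matrix (Cf n M) (Cf n M) ℂ} (hρ : ρ.PosDef) (htr : ρ.trace = 1) (j : Fin n) {l x y : ℝ}
    (hl : l ∈ Ioc (0 : ℝ) 1) (hx : 0 < x) (hy : 0 < y) (hxy : x + y ≤ 1) :
    x * gj n M (x * l) (loss n M x ρ) j + y * gj n M (y * l) (loss n M y ρ) j ≤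
      (x + y) * gj n M ((x + y) * l) (loss n M (x + y) ρ) j := by
  have hs : 0 < x + y := by linarith only [hx, hy]
  have hx' : 0 < x / (x + y) := by positivity
  have hx1 : x / (x + y) < 1 := by rw [div_lt_one hs]; linarith only [hy]
  have e1 : (1 : ℝ) - x / (x + y) = y / (x + y) := by field_simp; ring
  set σ := loss n M (x + y) ρ with hσ
  have hσp : σ.PosDef := loss_posDef hs hxy hρ
  have hll : (x + y) * l ∈ Icc (0 : ℝ) 1 :=
    ⟨by have := hl.1; positivity, mul_le_one₀ hxy hl.1.le hl.2⟩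
  have h := e3_abs (bsJ_isometry hx'.le hx1.le) hσp hx'.le (by linarith only [hx1] :
    (0:ℝ) ≤ 1 - x / (x + y)) (by ring) hll (ann_bsJ hx'.le hx1.le j)
    (ann_bsJ' hx'.le hx1.le j) rfl (ptr₂_loss hx'.le hx1.le σ).symm (loss_posDef hx' hx1.le hσp)
    (loss_posDef (by linarith) (by linarith) hσp)
  rw [e1, hσ] at h
  change Qf (x / (x + y) * ((x + y) * l)) (loss n M (x / (x + y)) (loss n M (x + y) ρ)) (ann n M j *
    loss n M (x / (x + y)) (loss n M (x + y) ρ)) + _ ≤ _ at h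
  rw [loss_loss hs.le hxy hx'.le hx1.le, loss_loss hs.le hxy (by positivity)
    (by rw [← e1]; linarith only [hx'])] at h
  have e2 : x / (x + y) * ((x + y) * l) = x * l := by field_simp
  have e3 : y / (x + y) * ((x + y) * l) = y * l := by field_simp
  have e4 : (x + y) * (x / (x + y)) = x := by field_simp
  have e5 : (x + y) * (y / (x + y)) = y := by field_simp
  rw [e2, e3, e4, e5] at h
  -- expansion
  have hHH : ∀ t : ℝ, t ∈ Ioc (0 : ℝ) 1 → Qf (t * l) (loss n M t ρ) (ann n M j * loss n M t ρ) =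
      t * enj n M ρ j - t * l + t * l * gj n M (t * l) (loss n M t ρ) j := by
    intro t ht
    have hν : t * l ∈ Icc (0 : ℝ) 1 := ⟨mul_nonneg ht.1.le hl.1.le, mul_le_one₀ ht.2 hl.1.le hl.2⟩
    have hT : (loss n M t ρ).trace = 1 := by rw [trace_loss ht.1.le ht.2, htr]
    have h1 := e1_Qf_expand hν (loss_posDef ht.1 ht.2 hρ) (ann n M j)
    rw [e1_ccr, hT, Complex.one_re] at h1
    rw [h1]
    have hen := enj_loss ht.1.le ht.2 ρ j
    unfold enj at hen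
    rw [hen]
    unfold gj Fj tj enj
    ring
  rw [hHH x ⟨hx, by linarith only [hy, hxy]⟩, hHH y ⟨hy, by linarith only [hx, hxy]⟩,
    hHH (x + y) ⟨hs, hxy⟩] at h
  have h5 : l * (x * gj n M (x * l) (loss n M x ρ) j + y * gj n M (y * l) (loss n M y ρ) j) ≤
      l * ((x + y) * gj n M ((x + y) * l) (loss n M (x + y) ρ) j) := by
    nlinarith only [h]
  exact le_of_mul_le_mul_left h5 hl.1

end

end Vale.Agent.P369Z
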