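import Vale.Agent.P369.H973.FinMode

/-!
P369, finite part of the loss-path inequality with mode-dependent references (helper973):
the scalar estimates of one mode.
-/

namespace Vale.Agent.P369Z

open Matrix MeasureTheory Set Filter Topology
open Vale.Agent.P369V
open Vale.Agent.P369 (Conf)
open Vale.Agent.P369N (bb cm bb_pos mul_bb_lt lt_mul_bb hasDerivAt_bb hasDerivAt_g ob_anti)

noncomputable section

/-- the properties of one mode along the loss path -/
structure ModeFam (g : ℝ → ℝ → ℝ) : Prop where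
  cont : ContinuousOn (Function.uncurry g) (Ioc (0 : ℝ) 1 ×ˢ Icc (0 : ℝ) 1)
  pos : ∀ t ∈ Ioc (0 : ℝ) 1, ∀ ν ∈ Icc (0 : ℝ) 1, 0 < g t ν
  conv : ∀ t ∈ Ioc (0 : ℝ) 1, ∀ ν₀ ∈ Ioc (0 : ℝ) 1, ∀ ν₁ ∈ Ioc (0 : ℝ) 1, ∀ w₀ w₁ s : ℝ,
      0 ≤ w₀ → 0 ≤ w₁ → 0 ≤ s → s ≤ 1 →
      ((1 - s) * w₀ + s * w₁) ^ 2 * (g t ((1 - s) * ν₀ + s * ν₁) / ((1 - s) * ν₀ + s * ν₁)) ≤
        (1 - s) * (w₀ ^ 2 * (g t ν₀ / ν₀)) + s * (w₁ ^ 2 * (g t ν₁ / ν₁))
  dp : ∀ t ∈ Ioc (0 : ℝ) 1, ∀ ν ∈ Ioc (0 : ℝ) 1, ∀ r : ℝ, 0 ≤ r →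
      (ν + t * r) ^ 2 * (g t ν / ν) ≤ (1 - t) * ν + t * ((ν + r) ^ 2 * (g 1 ν / ν))
  sa : ∀ l ∈ Ioc (0 : ℝ) 1, ∀ x y : ℝ, 0 < x → 0 < y → x + y ≤ 1 →
      x * g x (x * l) + y * g y (y * l) ≤ (x + y) * g (x + y) ((x + y) * l)

/-- the entropy difference contributed by one mode -/
def Pg (g : ℝ → ℝ → ℝ) (ε : ℝ) : ℝ := ∫ t in ε..1, (1 - ∫ ν in (0 : ℝ)..1, g t ν) / t

section tangent

theorem hasDerivAt_mul_bb {x : ℝ} (hx : 0 < x) :
    HasDerivAt (fun y => y * bb y) (bb x - 1 / (x + 1)) x := by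
  refine ((hasDerivAt_id x).mul (hasDerivAt_bb hx)).congr_deriv ?_
  simp only [id]
  field_simp
  ring

theorem deriv_sign {R x : ℝ} (hR : 0 < R) (hx : 0 < x) :
    bb x - cm R * (bb x - 1 / (x + 1)) =
      ((R + 1) * bb R - (x + 1) * bb x) / (((R + 1) * bb R - 1) * (x + 1)) := by
  have h1 := lt_mul_bb hR
  have h2 : (R + 1) * bb R - 1 ≠ 0 := by linarith
  have h3 : x + 1 ≠ 0 := by linarith
  unfold cm
  field_simp
  ring

theorem tangent_cm {R x : ℝ} (hR : 0 < R) (hx : 0 < x) :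
    P369.g R - cm R * (R * bb R - x * bb x) ≤ P369.g x := by
  set F : ℝ → ℝ := fun y => P369.g y - cm R * (y * bb y) with hF
  have hd : ∀ y, 0 < y → HasDerivAt F (bb y - cm R * (bb y - 1 / (y + 1))) y := fun y hy =>
    (hasDerivAt_g hy).sub ((hasDerivAt_mul_bb hy).const_mul _)
  have hB := lt_mul_bb hR
  have key : F R ≤ F x := by
    rcases le_total x R with h | h
    · have ha : AntitoneOn F (Icc x R) := by
        refine antitoneOn_of_deriv_nonpos (convex_Icc x R)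
          (fun y hy => (hd y (lt_of_lt_of_le hx hy.1)).continuousAt.continuousWithinAt)
          (fun y hy => ?_) (fun y hy => ?_)
        · rw [interior_Icc] at hy
          exact (hd y (lt_trans hx hy.1)).differentiableAt.differentiableWithinAt
        · rw [interior_Icc] at hy
          have hy0 := lt_trans hx hy.1
          rw [(hd y hy0).deriv, deriv_sign hR hy0]
          have h4 := ob_anti (a := y) (b := R) hy0 hR hy.2.le
          simp only at h4
          refine div_nonpos_of_nonpos_of_nonneg (by linarith) ?_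
          have : 0 < y + 1 := by linarith
          exact mul_nonneg (by linarith) this.le
      exact ha ⟨le_rfl, h⟩ ⟨h, le_rfl⟩ h
    · have ha : MonotoneOn F (Icc R x) := by
        refine monotoneOn_of_deriv_nonneg (convex_Icc R x)
          (fun y hy => (hd y (lt_of_lt_of_le hR hy.1)).continuousAt.continuousWithinAt)
          (fun y hy => ?_) (fun y hy => ?_)
        · rw [interior_Icc] at hy
          exact (hd y (lt_trans hR hy.1)).differentiableAt.differentiableWithinAt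
        · rw [interior_Icc] at hy
          have hy0 := lt_trans hR hy.1
          rw [(hd y hy0).deriv, deriv_sign hR hy0]
          have h4 := ob_anti (a := R) (b := y) hR hy0 hy.1.le
          simp only at h4
          refine div_nonneg (by linarith) ?_
          have : 0 < y + 1 := by linarith
          exact mul_nonneg (by linarith) this.le
      exact ha ⟨le_rfl, h⟩ ⟨h, le_rfl⟩ h
  rw [hF] at key
  simp only at key
  linarith

theorem tendsto_mul_bb : Tendsto (fun x : ℝ => x * bb x) (𝓝[>] 0) (𝓝 0) := by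
  have h : Tendsto (fun x : ℝ => x * Real.log (x + 1) - x * Real.log x) (𝓝[>] 0)
      (𝓝 (0 * Real.log (0 + 1) - 0 * Real.log 0)) := by
    refine Tendsto.mono_left ?_ nhdsWithin_le_nhds
    have h1 : ContinuousAt (fun x : ℝ => x * Real.log (x + 1)) 0 := by
      refine continuousAt_id.mul ((continuousAt_id.add continuousAt_const).log ?_)
      simp
    exact h1.tendsto.sub (Real.continuous_mul_log.tendsto 0)
  rw [zero_mul, zero_mul, sub_zero] at h
  refine h.congr' ?_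
  filter_upwards [self_mem_nhdsWithin] with x hx
  have hx0 : (0 : ℝ) < x := hx
  rw [Vale.Agent.P369N.bb_eq hx0]
  ring

theorem tangent_cm0 {R : ℝ} (hR : 0 < R) : P369.g R ≤ cm R * (R * bb R) := by
  have h1 : Tendsto (fun x : ℝ => P369.g x + cm R * (R * bb R - x * bb x)) (𝓝[>] 0)
      (𝓝 (P369.g 0 + cm R * (R * bb R - 0))) :=
    ((a6_continuous_g.tendsto 0).mono_left nhdsWithin_le_nhds).add
      ((tendsto_const_nhds.sub tendsto_mul_bb).const_mul _)
  rw [a6_g_zero, zero_add, sub_zero] at h1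
  refine ge_of_tendsto h1 ?_
  filter_upwards [self_mem_nhdsWithin] with x hx
  have := tangent_cm hR (show (0 : ℝ) < x from hx)
  linarith

theorem one_le_cm {R : ℝ} (hR : 0 < R) : 1 ≤ cm R := by
  have h := lt_mul_bb hR
  unfold cm
  rw [le_div_iff₀ (by linarith)]
  linarith

end tangent

namespace ModeFam

variable {g : ℝ → ℝ → ℝ}

theorem phi_cont (hg : ModeFam g) :
    ContinuousOn (fun t => (1 - ∫ ν in (0 : ℝ)..1, g t ν) / t) (Ioc 0 1) :=
  (continuousOn_const.sub (a6_param zero_le_one hg.cont)).div continuousOn_id fun _ ht => ht.1.ne'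

theorem phi_int (hg : ModeFam g) {a b : ℝ} (ha : a ∈ Ioc (0 : ℝ) 1) (hb : b ∈ Ioc (0 : ℝ) 1) :
    IntervalIntegrable (fun t => (1 - ∫ ν in (0 : ℝ)..1, g t ν) / t) volume a b := by
  refine (hg.phi_cont.mono ?_).intervalIntegrable
  intro x hx
  rcases le_total a b with h | h
  · rw [uIcc_of_le h] at hx
    exact ⟨lt_of_lt_of_le ha.1 hx.1, hx.2.trans hb.2⟩
  · rw [uIcc_of_ge h] at hx
    exact ⟨lt_of_lt_of_le hb.1 hx.1, hx.2.trans ha.2⟩

theorem Pg_deriv (hg : ModeFam g) {t : ℝ} (ht : t ∈ Ioo (0 : ℝ) 1) :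
    HasDerivAt (fun t => -Pg g t) ((1 - ∫ ν in (0 : ℝ)..1, g t ν) / t) t := by
  have h1 : HasDerivAt (fun u => ∫ x in u..1, (1 - ∫ ν in (0 : ℝ)..1, g x ν) / x)
      (-((1 - ∫ ν in (0 : ℝ)..1, g t ν) / t)) t := by
    refine intervalIntegral.integral_hasDerivAt_left (hg.phi_int ⟨ht.1, ht.2.le⟩ ⟨one_pos, le_rfl⟩) ?_ ?_
    · exact ContinuousOn.stronglyMeasurableAtFilter isOpen_Ioo
        (hg.phi_cont.mono Ioo_subset_Ioc_self) t ht
    · exact hg.phi_cont.continuousAt (Ioc_mem_nhds ht.1 ht.2)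
  have h2 := h1.neg
  rw [neg_neg] at h2
  exact h2

theorem Pg_cont (hg : ModeFam g) : ContinuousOn (fun t => -Pg g t) (Ioc 0 1) := by
  intro t0 ht0
  have hI : IntervalIntegrable (fun t => (1 - ∫ ν in (0 : ℝ)..1, g t ν) / t) volume (t0 / 2) 1 :=
    hg.phi_int ⟨by linarith [ht0.1], by linarith [ht0.2, ht0.1]⟩ ⟨one_pos, le_rfl⟩
  have h1 := intervalIntegral.continuousOn_primitive_interval' hI (right_mem_uIcc)
  rw [uIcc_of_le (by linarith [ht0.2, ht0.1])] at h1
  have h2 : ContinuousOn (fun t => -Pg g t) (Icc (t0 / 2) 1) := by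
    refine h1.congr fun t _ => ?_
    unfold Pg
    rw [intervalIntegral.integral_symm, neg_neg]
  have h3 := h2 t0 ⟨by linarith [ht0.1], ht0.2⟩
  refine h3.mono_of_mem_nhdsWithin ?_
  have h4 : Ioi (t0 / 2) ∈ 𝓝[Ioc 0 1] t0 := mem_nhdsWithin_of_mem_nhds (Ioi_mem_nhds (by linarith [ht0.1]))
  filter_upwards [h4, self_mem_nhdsWithin] with x hx hx'
  exact ⟨le_of_lt hx, hx'.2⟩

theorem cont_one (hg : ModeFam g) : ContinuousOn (g 1) (Icc 0 1) :=
  hg.cont.comp (f := fun l : ℝ => ((1 : ℝ), l)) (by fun_prop) (fun l hl => ⟨⟨one_pos, le_rfl⟩, hl⟩)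

theorem slice (hg : ModeFam g) {t : ℝ} (ht : t ∈ Ioc (0 : ℝ) 1) : ContinuousOn (g t) (Icc 0 1) :=
  hg.cont.comp (f := fun l : ℝ => (t, l)) (by fun_prop) (fun l hl => ⟨ht, hl⟩)

theorem slice_int (hg : ModeFam g) {t : ℝ} (ht : t ∈ Ioc (0 : ℝ) 1) {a b : ℝ} (ha : a ∈ Icc (0 : ℝ) 1)
    (hb : b ∈ Icc (0 : ℝ) 1) : IntervalIntegrable (g t) volume a b :=
  ((hg.slice ht).mono (uIcc_subset_Icc ha hb)).intervalIntegrable

theorem int_one_pos (hg : ModeFam g) : 0 < ∫ ν in (0 : ℝ)..1, g 1 ν := by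
  refine intervalIntegral.intervalIntegral_pos_of_pos_on
    (hg.slice_int ⟨one_pos, le_rfl⟩ ⟨le_rfl, zero_le_one⟩ ⟨zero_le_one, le_rfl⟩) ?_ one_pos
  intro x hx
  exact hg.pos 1 ⟨one_pos, le_rfl⟩ x ⟨hx.1.le, hx.2.le⟩

/-- the branch with the weight `c₋` -/
theorem mode_w (hg : ModeFam g) {R : ℝ} (hR : 0 < R) {e : ℝ} (he : 0 < e) :
    ∀ᶠ ε in 𝓝[>] (0 : ℝ),
      P369.g R - cm R * (R * bb R - (1 - ∫ ν in (0 : ℝ)..1, g 1 ν)) - e ≤ Pg g ε := by
  set l := 1 - ∫ ν in (0 : ℝ)..1, g 1 ν with hl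
  have hl1 : l < 1 := by have := hg.int_one_pos; linarith
  rcases lt_or_ge 0 l with h0 | h0
  · obtain ⟨x, hx, hlx⟩ := a7_exists h0 hl1
    have h1 := iso_scalar_diff (S := fun t => -Pg g t) hx hg.cont hg.pos hg.conv hg.dp hg.sa
      hg.Pg_cont (fun t ht => hg.Pg_deriv ht) (by rw [← hl, hlx]; rfl) he
    filter_upwards [h1] with ε hε
    have h2 := tangent_cm hR hx
    have h3 : x * bb x = l := by rw [hlx]; rfl
    rw [h3] at h2
    have h4 : Pg g 1 = 0 := by unfold Pg; exact intervalIntegral.integral_same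
    simp only [h4, neg_zero, zero_sub, neg_neg] at hε
    linarith
  · -- `l ≤ 0`
    have hb : P369.g R - cm R * (R * bb R - l) ≤ l := by
      have h1 := tangent_cm0 hR
      have h2 := one_le_cm hR
      nlinarith
    filter_upwards [Ioo_mem_nhdsGT (zero_lt_one (α := ℝ))] with ε hε
    have hεI : ε ∈ Ioc (0 : ℝ) 1 := ⟨hε.1, hε.2.le⟩
    have h1 : (∫ t in ε..1, l) ≤ Pg g ε := by
      unfold Pg
      refine intervalIntegral.integral_mono_on hε.2.le intervalIntegrable_const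
        (hg.phi_int hεI ⟨one_pos, le_rfl⟩) ?_
      intro t ht
      have htI : t ∈ Ioc (0 : ℝ) 1 := ⟨lt_of_lt_of_le hε.1 ht.1, ht.2⟩
      rw [le_div_iff₀ htI.1]
      have h2 : (∫ ν in (0 : ℝ)..1, g t ν) ≤ ∫ ν in (0 : ℝ)..1, ((1 - t) + t * g 1 ν) := by
        refine intervalIntegral.integral_mono_on_of_le_Ioo zero_le_one
          (hg.slice_int htI ⟨le_rfl, zero_le_one⟩ ⟨zero_le_one, le_rfl⟩)
          (intervalIntegrable_const.add ((hg.slice_int ⟨one_pos, le_rfl⟩ ⟨le_rfl, zero_le_one⟩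
            ⟨zero_le_one, le_rfl⟩).const_mul t)) ?_
        intro ν hν
        have h3 := hg.dp t htI ν ⟨hν.1, hν.2.le⟩ 0 le_rfl
        have h4 : ν * g t ν ≤ ν * ((1 - t) + t * g 1 ν) := by
          have e1 : (ν + t * 0) ^ 2 * (g t ν / ν) = ν * g t ν := by
            have := hν.1.ne'
            field_simp
            ring
          have e2 : (1 - t) * ν + t * ((ν + 0) ^ 2 * (g 1 ν / ν)) = ν * ((1 - t) + t * g 1 ν) := by
            have := hν.1.ne'
            field_simp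
            ring
          rw [e1, e2] at h3
          exact h3
        exact le_of_mul_le_mul_left h4 hν.1
      rw [intervalIntegral.integral_add intervalIntegrable_const ((hg.slice_int ⟨one_pos, le_rfl⟩
        ⟨le_rfl, zero_le_one⟩ ⟨zero_le_one, le_rfl⟩).const_mul t), intervalIntegral.integral_const,
        intervalIntegral.integral_const_mul] at h2
      simp only [sub_zero, smul_eq_mul, one_mul] at h2
      rw [hl]
      nlinarith
    rw [intervalIntegral.integral_const, smul_eq_mul] at h1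
    have h2 : l ≤ (1 - ε) * l := by nlinarith [hε.1]
    linarith

end ModeFam

end

end Vale.Agent.P369Z
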