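import Vale.Agent.P369.H973.FinScal

/-!
P369, finite part of the loss-path inequality with mode-dependent references (helper973):
the branch of one mode that uses data processing only.
-/

namespace Vale.Agent.P369Z

open Matrix MeasureTheory Set Filter Topology
open Vale.Agent.P369V
open Vale.Agent.P369 (Conf)
open Vale.Agent.P369N (bb cm bb_pos mul_bb_lt lt_mul_bb hasDerivAt_bb hasDerivAt_g ob_anti)

noncomputable section

theorem log_one_add_le {y : ℝ} (hy : 0 ≤ y) : Real.log (1 + y) ≤ 2 * Real.sqrt y := by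
  have h0 := Real.sqrt_nonneg y
  have h1 : 1 + y ≤ (1 + Real.sqrt y) ^ 2 := by nlinarith [Real.sq_sqrt hy]
  have h2 : Real.log (1 + y) ≤ Real.log ((1 + Real.sqrt y) ^ 2) := Real.log_le_log (by linarith) h1
  rw [Real.log_pow] at h2
  have h3 := Real.log_le_sub_one_of_pos (show 0 < 1 + Real.sqrt y by linarith)
  push_cast at h2
  linarith

theorem int_frac' {c δ : ℝ} (hc : 0 < c) (hδ : 0 ≤ δ) :
    ∫ ν in (0 : ℝ)..δ, ν / (ν + c) = δ - c * Real.log (1 + δ / c) := by
  have h1 : ∀ x ∈ uIcc (0 : ℝ) δ, HasDerivAt (fun ν => ν - c * Real.log (ν + c)) (x / (x + c)) x := by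
    intro x hx
    rw [uIcc_of_le hδ] at hx
    have hxR : 0 < x + c := by linarith only [hc, hx.1]
    have h2 : HasDerivAt (fun ν => Real.log (ν + c)) (1 / (x + c)) x :=
      ((hasDerivAt_id x).add_const c).log hxR.ne'
    have h3 := (hasDerivAt_id x).sub (h2.const_mul c)
    convert! h3 using 1
    field_simp
    ring
  have hcc : ContinuousOn (fun ν : ℝ => ν / (ν + c)) (uIcc 0 δ) := by
    rw [uIcc_of_le hδ]
    refine continuousOn_id.div (by fun_prop) fun x hx => ?_
    have : 0 < x + c := by linarith only [hc, hx.1]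
    exact this.ne'
  rw [intervalIntegral.integral_eq_sub_of_hasDerivAt h1 hcc.intervalIntegrable]
  have e : 1 + δ / c = (δ + c) / c := by
    field_simp
    ring
  have h3 : 0 < δ + c := by linarith
  rw [e, Real.log_div h3.ne' hc.ne', zero_add]
  ring

theorem frac_int {c a b : ℝ} (hc : 0 < c) (ha : 0 ≤ a) (hb : 0 ≤ b) :
    IntervalIntegrable (fun ν : ℝ => ν / (ν + c)) volume a b := by
  refine ContinuousOn.intervalIntegrable ?_
  refine continuousOn_id.div (by fun_prop) fun x hx => ?_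
  have : 0 ≤ x := by
    rcases le_total a b with h | h
    · rw [uIcc_of_le h] at hx; exact ha.trans hx.1
    · rw [uIcc_of_ge h] at hx; exact hb.trans hx.1
  have : 0 < x + c := by linarith
  exact this.ne'

/-- `log` form of the reference integrand on `[δ, 1]` -/
theorem int_frac_tail {c δ : ℝ} (hc : 0 < c) (hδ : δ ∈ Icc (0 : ℝ) 1) :
    ∫ ν in δ..1, ν / (ν + c) ≤ 1 - δ - c * Real.log (1 + 1 / c) + 2 * Real.sqrt (c * δ) := by
  have h1 := intervalIntegral.integral_add_adjacent_intervals (frac_int hc le_rfl hδ.1)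
    (frac_int hc hδ.1 zero_le_one)
  rw [int_frac' hc hδ.1, int_frac' hc zero_le_one] at h1
  have h2 := log_one_add_le (y := δ / c) (by have := hδ.1; positivity)
  have h3 : c * Real.sqrt (δ / c) = Real.sqrt (c * δ) := by
    have : c * δ = c ^ 2 * (δ / c) := by field_simp
    rw [this, Real.sqrt_mul (by positivity), Real.sqrt_sq hc.le]
  have h4 : c * Real.log (1 + δ / c) ≤ 2 * Real.sqrt (c * δ) := by
    rw [← h3]
    nlinarith
  linarith

theorem int_g_path {R ε : ℝ} (hR : 0 < R) (hε : ε ∈ Ioc (0 : ℝ) 1) :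
    IntervalIntegrable (fun t => R * Real.log (1 + 1 / (t * R))) volume ε 1 ∧
    ∫ t in ε..1, R * Real.log (1 + 1 / (t * R)) = P369.g R - P369.g (ε * R) := by
  have hd : ∀ t ∈ uIcc ε 1, HasDerivAt (fun s : ℝ => P369.g (s * R))
      (R * Real.log (1 + 1 / (t * R))) t := by
    intro t ht
    rw [uIcc_of_le hε.2] at ht
    have ht0 : 0 < t := lt_of_lt_of_le hε.1 ht.1
    have h1 : HasDerivAt (fun s : ℝ => s * R) R t := by
      simpa only [id_eq, one_mul] using (hasDerivAt_id t).mul_const R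
    have h2 := HasDerivAt.comp (h := fun s : ℝ => s * R) (h₂ := P369.g) t
      (a6_hasDerivAt_g (mul_pos ht0 hR)) h1
    rw [mul_comm] at h2
    exact h2
  have hc : ContinuousOn (fun t => R * Real.log (1 + 1 / (t * R))) (uIcc ε 1) := by
    rw [uIcc_of_le hε.2]
    refine continuousOn_const.mul (ContinuousOn.log ?_ ?_)
    · refine continuousOn_const.add (continuousOn_const.div (by fun_prop) fun t ht => ?_)
      exact (mul_pos (lt_of_lt_of_le hε.1 ht.1) hR).ne'
    · intro t ht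
      have : 0 < 1 / (t * R) := one_div_pos.2 (mul_pos (lt_of_lt_of_le hε.1 ht.1) hR)
      linarith
  refine ⟨hc.intervalIntegrable, ?_⟩
  rw [intervalIntegral.integral_eq_sub_of_hasDerivAt hd hc.intervalIntegrable, one_mul]

theorem int_inv_sqrt {ε : ℝ} (hε : ε ∈ Ioc (0 : ℝ) 1) :
    IntervalIntegrable (fun t => 1 / Real.sqrt t) volume ε 1 ∧
    ∫ t in ε..1, 1 / Real.sqrt t ≤ 2 := by
  have hd : ∀ t ∈ uIcc ε 1, HasDerivAt (fun s : ℝ => 2 * Real.sqrt s) (1 / Real.sqrt t) t := by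
    intro t ht
    rw [uIcc_of_le hε.2] at ht
    have ht0 : 0 < t := lt_of_lt_of_le hε.1 ht.1
    have h1 := (Real.hasDerivAt_sqrt ht0.ne').const_mul 2
    refine h1.congr_deriv ?_
    have := (Real.sqrt_pos.2 ht0).ne'
    field_simp
  have hc : ContinuousOn (fun t => 1 / Real.sqrt t) (uIcc ε 1) := by
    rw [uIcc_of_le hε.2]
    refine continuousOn_const.div Real.continuous_sqrt.continuousOn fun t ht => ?_
    exact (Real.sqrt_pos.2 (lt_of_lt_of_le hε.1 ht.1)).ne'
  refine ⟨hc.intervalIntegrable, ?_⟩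
  rw [intervalIntegral.integral_eq_sub_of_hasDerivAt hd hc.intervalIntegrable, Real.sqrt_one]
  have := Real.sqrt_nonneg ε
  linarith

theorem int_inv_sq {R ν ε : ℝ} (hR : 0 < R) (hν : 0 < ν) (hε : ε ∈ Ioc (0 : ℝ) 1) :
    ∫ t in ε..1, 1 / (ν + t * R) ^ 2 = (1 - ε) / ((ν + ε * R) * (ν + R)) := by
  have hp : ∀ t, 0 ≤ t → 0 < ν + t * R := fun t ht => by
    have := mul_nonneg ht hR.le
    linarith
  have hd : ∀ t ∈ uIcc ε 1, HasDerivAt (fun s : ℝ => -(1 / (R * (ν + s * R)))) (1 / (ν + t * R) ^ 2) t := by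
    intro t ht
    rw [uIcc_of_le hε.2] at ht
    have ht0 : 0 < t := lt_of_lt_of_le hε.1 ht.1
    have h0 := hp t ht0.le
    have h1 : HasDerivAt (fun s : ℝ => R * (ν + s * R)) (R * R) t := by
      have := ((hasDerivAt_id t).mul_const R).const_add ν |>.const_mul R
      simpa using this
    have h2 := ((h1.inv (mul_pos hR h0).ne').neg)
    have h3 : -(-(R * R) / (R * (ν + t * R)) ^ 2) = 1 / (ν + t * R) ^ 2 := by
      field_simp
    rw [h3] at h2
    refine h2.congr_of_eventuallyEq (Filter.Eventually.of_forall fun s => ?_)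
    simp only [one_div, Pi.neg_apply, Pi.inv_apply]
  have hc : ContinuousOn (fun t => 1 / (ν + t * R) ^ 2) (uIcc ε 1) := by
    rw [uIcc_of_le hε.2]
    refine continuousOn_const.div (by fun_prop) fun t ht => ?_
    exact (pow_pos (hp t (hε.1.le.trans ht.1)) 2).ne'
  rw [intervalIntegral.integral_eq_sub_of_hasDerivAt hd hc.intervalIntegrable]
  have h1 := hp ε hε.1.le
  have h2 := hp 1 zero_le_one
  rw [one_mul] at h2 ⊢
  have h1' := h1.ne'
  have h2' := h2.ne'
  have e1 : -(1 / (R * (ν + R))) - -(1 / (R * (ν + ε * R))) =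
      ((ν + R) - (ν + ε * R)) / (R * ((ν + ε * R) * (ν + R))) := by
    rw [neg_sub_neg, div_sub_div _ _ (mul_ne_zero hR.ne' h1') (mul_ne_zero hR.ne' h2'),
      div_eq_div_iff (mul_ne_zero (mul_ne_zero hR.ne' h1') (mul_ne_zero hR.ne' h2'))
        (mul_ne_zero hR.ne' (mul_ne_zero h1' h2'))]
    ring
  rw [e1, div_eq_div_iff (mul_ne_zero hR.ne' (mul_ne_zero h1' h2')) (mul_ne_zero h1' h2')]
  ring

namespace ModeFam

variable {g : ℝ → ℝ → ℝ}

/-- the branch that uses data processing only -/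
theorem mode_u (hg : ModeFam g) {R : ℝ} (hR : 0 < R) {δ : ℝ} (hδ : δ ∈ Ioc (0 : ℝ) 1) {ε : ℝ}
    (hε : ε ∈ Ioo (0 : ℝ) 1) :
    P369.g R - P369.g (ε * R) - (-(1 - ∫ ν in (0 : ℝ)..1, g 1 ν) + R * (∫ ν in δ..1, g 1 ν / ν) +
      4 * Real.sqrt (R * δ)) - ε * (δ + (1 + R) / δ) ≤ Pg g ε := by
  have h1I : (1 : ℝ) ∈ Ioc (0 : ℝ) 1 := ⟨one_pos, le_rfl⟩
  have hεI : ε ∈ Ioc (0 : ℝ) 1 := ⟨hε.1, hε.2.le⟩
  have hδ0 := hδ.1
  have z01 : (0 : ℝ) ∈ Icc (0 : ℝ) 1 := ⟨le_rfl, zero_le_one⟩
  have o01 : (1 : ℝ) ∈ Icc (0 : ℝ) 1 := ⟨zero_le_one, le_rfl⟩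
  have d01 : δ ∈ Icc (0 : ℝ) 1 := ⟨hδ.1.le, hδ.2⟩
  set G : ℝ → ℝ → ℝ := fun t ν => (ν + R) * ((ν + R) * g 1 ν - ν) * (1 / (ν + t * R) ^ 2) with hG
  set a : ℝ := ∫ ν in (0 : ℝ)..δ, g 1 ν with ha
  have ha0 : 0 ≤ a := intervalIntegral.integral_nonneg hδ.1.le fun ν hν =>
    (hg.pos 1 h1I ν ⟨hν.1, hν.2.trans hδ.2⟩).le
  have hGc : ContinuousOn (Function.uncurry G) (Icc ε 1 ×ˢ Icc δ 1) := by
    have hc1 : ContinuousOn (fun p : ℝ × ℝ => g 1 p.2) (Icc ε 1 ×ˢ Icc δ 1) :=
      hg.cont_one.comp continuousOn_snd fun p hp => ⟨hδ.1.le.trans hp.2.1, hp.2.2⟩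
    have hc2 : ContinuousOn (fun p : ℝ × ℝ => 1 / (p.2 + p.1 * R) ^ 2) (Icc ε 1 ×ˢ Icc δ 1) := by
      refine continuousOn_const.div (by fun_prop) fun p hp => ?_
      have h1 : 0 < p.2 := lt_of_lt_of_le hδ.1 hp.2.1
      have h2 : 0 < p.1 := lt_of_lt_of_le hε.1 hp.1.1
      positivity
    change ContinuousOn (fun p : ℝ × ℝ => (p.2 + R) * ((p.2 + R) * g 1 p.2 - p.2) *
      (1 / (p.2 + p.1 * R) ^ 2)) _
    refine ContinuousOn.mul (ContinuousOn.mul (by fun_prop) ?_) hc2
    exact ((by fun_prop : ContinuousOn (fun p : ℝ × ℝ => p.2 + R) _).mul hc1).sub (by fun_prop)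
  have hGs : ∀ t ∈ Icc ε 1, ContinuousOn (G t) (Icc δ 1) := fun t ht =>
    hGc.comp (f := fun l => (t, l)) (by fun_prop) (fun l hl => ⟨ht, hl⟩)
  have hGi : ∀ t ∈ Icc ε 1, IntervalIntegrable (G t) volume δ 1 := fun t ht => by
    have := hGs t ht
    rw [← uIcc_of_le hδ.2] at this
    exact this.intervalIntegrable
  -- pointwise lower bound of the integrand
  have hpt : ∀ t ∈ Icc ε 1, R * Real.log (1 + 1 / (t * R)) - 2 * Real.sqrt (R * δ) * (1 / Real.sqrt t)
      + (δ - a) - (∫ ν in δ..1, G t ν) ≤ (1 - ∫ ν in (0 : ℝ)..1, g t ν) / t := by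
    intro t ht
    have ht0 : 0 < t := lt_of_lt_of_le hε.1 ht.1
    have htI : t ∈ Ioc (0 : ℝ) 1 := ⟨ht0, ht.2⟩
    have hc : 0 < t * R := mul_pos ht0 hR
    have hA : (∫ ν in (0 : ℝ)..δ, g t ν) ≤ (1 - t) * δ + t * a := by
      have h2 : (∫ ν in (0 : ℝ)..δ, g t ν) ≤ ∫ ν in (0 : ℝ)..δ, ((1 - t) + t * g 1 ν) := by
        refine intervalIntegral.integral_mono_on_of_le_Ioo hδ.1.le (hg.slice_int htI z01 d01)
          (intervalIntegrable_const.add ((hg.slice_int h1I z01 d01).const_mul t)) ?_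
        intro ν hν
        have hν1 : ν ∈ Ioc (0 : ℝ) 1 := ⟨hν.1, hν.2.le.trans hδ.2⟩
        have h3 := hg.dp t htI ν hν1 0 le_rfl
        have h4 : ν * g t ν ≤ ν * ((1 - t) + t * g 1 ν) := by
          have e1 : (ν + t * 0) ^ 2 * (g t ν / ν) = ν * g t ν := by
            have := hν.1.ne'
            field_simp
            ring
          have e2 : (1 - t) * ν + t * ((ν + 0) ^ 2 * (g 1 ν / ν)) = ν * ((1 - t) + t * g 1 ν) := by
            have := hν.1.ne'
            field_simp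
            ring
          rw [e1, e2] at h3
          exact h3
        exact le_of_mul_le_mul_left h4 hν.1
      rw [intervalIntegral.integral_add intervalIntegrable_const
        ((hg.slice_int h1I z01 d01).const_mul t), intervalIntegral.integral_const,
        intervalIntegral.integral_const_mul] at h2
      simp only [sub_zero, smul_eq_mul] at h2
      rw [ha]
      linarith
    have hB : (∫ ν in δ..1, g t ν) ≤ (∫ ν in δ..1, ν / (ν + t * R)) + t * ∫ ν in δ..1, G t ν := by
      have h2 : (∫ ν in δ..1, g t ν) ≤ ∫ ν in δ..1, (ν / (ν + t * R) + t * G t ν) := by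
        refine intervalIntegral.integral_mono_on hδ.2 (hg.slice_int htI d01 o01)
          ((frac_int hc hδ.1.le zero_le_one).add ((hGi t ht).const_mul t)) ?_
        intro ν hν
        have hν0 : 0 < ν := lt_of_lt_of_le hδ.1 hν.1
        have h3 := hg.dp t htI ν ⟨hν0, hν.2⟩ R hR.le
        have hp : 0 < ν + t * R := by linarith
        have h5 : g t ν = ν / (ν + t * R) ^ 2 * ((ν + t * R) ^ 2 * (g t ν / ν)) := by
          field_simp
        have h6 : ν / (ν + t * R) + t * G t ν =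
            ν / (ν + t * R) ^ 2 * ((1 - t) * ν + t * ((ν + R) ^ 2 * (g 1 ν / ν))) := by
          rw [hG]
          simp only
          field_simp
          ring
        rw [h5, h6]
        exact mul_le_mul_of_nonneg_left h3 (by positivity)
      rwa [intervalIntegral.integral_add (frac_int hc hδ.1.le zero_le_one) ((hGi t ht).const_mul t),
        intervalIntegral.integral_const_mul] at h2
    have hC := int_frac_tail hc d01
    have hadd := intervalIntegral.integral_add_adjacent_intervals (hg.slice_int htI z01 d01)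
      (hg.slice_int htI d01 o01)
    have hs : Real.sqrt (t * R * δ) = Real.sqrt t * Real.sqrt (R * δ) := by
      rw [mul_assoc, Real.sqrt_mul ht0.le]
    have hst : 0 < Real.sqrt t := Real.sqrt_pos.2 ht0
    have hss : Real.sqrt t * Real.sqrt t = t := Real.mul_self_sqrt ht0.le
    rw [le_div_iff₀ ht0, ← hadd]
    have e1 : t * (1 / Real.sqrt t) = Real.sqrt t := by
      field_simp
      nlinarith
    have e2 : (R * Real.log (1 + 1 / (t * R)) - 2 * Real.sqrt (R * δ) * (1 / Real.sqrt t)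
      + (δ - a) - (∫ ν in δ..1, G t ν)) * t = t * R * Real.log (1 + 1 / (t * R)) -
        2 * Real.sqrt (R * δ) * (t * (1 / Real.sqrt t)) + t * (δ - a) - t * ∫ ν in δ..1, G t ν := by
      ring
    rw [e2, e1]
    rw [hs] at hC
    nlinarith
  -- integrate
  obtain ⟨i1, v1⟩ := int_g_path hR hεI
  obtain ⟨i2, v2⟩ := int_inv_sqrt hεI
  have i3 : IntervalIntegrable (fun t => ∫ ν in δ..1, G t ν) volume ε 1 :=
    P369A.rect_intervalIntegrable hε.2.le hδ.2 hGc
  have hsum : (∫ t in ε..1, (R * Real.log (1 + 1 / (t * R)) - 2 * Real.sqrt (R * δ) * (1 / Real.sqrt t)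
      + (δ - a) - (∫ ν in δ..1, G t ν))) ≤ Pg g ε := by
    unfold Pg
    exact intervalIntegral.integral_mono_on hε.2.le
      (((i1.sub (i2.const_mul _)).add intervalIntegrable_const).sub i3)
      (hg.phi_int hεI h1I) hpt
  rw [intervalIntegral.integral_sub ((i1.sub (i2.const_mul _)).add intervalIntegrable_const) i3,
    intervalIntegral.integral_add (i1.sub (i2.const_mul _)) intervalIntegrable_const,
    intervalIntegral.integral_sub i1 (i2.const_mul _), v1, intervalIntegral.integral_const_mul,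
    intervalIntegral.integral_const, smul_eq_mul, P369A.rect_swap hε.2.le hδ.2 hGc] at hsum
  -- the double integral
  have hD : (∫ ν in δ..1, ∫ t in ε..1, G t ν) ≤ ∫ ν in δ..1, (((1 - 1 : ℝ) + R * (g 1 ν / ν) + g 1 ν - 1)
      + ε * ((1 + R) / δ)) := by
    have hcq : ContinuousOn (fun ν => g 1 ν / ν) (Icc δ 1) :=
      (hg.cont_one.mono (Icc_subset_Icc_left hδ.1.le)).div continuousOn_id
        fun ν hν => (lt_of_lt_of_le hδ.1 hν.1).ne'
    have hcg : ContinuousOn (g 1) (Icc δ 1) := hg.cont_one.mono (Icc_subset_Icc_left hδ.1.le)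
    have hcG : ContinuousOn (fun ν => (ν + R) * ((ν + R) * g 1 ν - ν) *
        ((1 - ε) / ((ν + ε * R) * (ν + R)))) (Icc δ 1) := by
      refine ContinuousOn.mul (ContinuousOn.mul (by fun_prop)
        (((by fun_prop : ContinuousOn (fun ν : ℝ => ν + R) _).mul hcg).sub (by fun_prop))) ?_
      refine continuousOn_const.div (by fun_prop) fun ν hν => ?_
      have h1 : 0 < ν := lt_of_lt_of_le hδ.1 hν.1
      have h2 := hε.1
      positivity
    have e1 : ∀ ν ∈ Icc δ 1, (∫ t in ε..1, G t ν) = (ν + R) * ((ν + R) * g 1 ν - ν) *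
        ((1 - ε) / ((ν + ε * R) * (ν + R))) := by
      intro ν hν
      have h1 : 0 < ν := lt_of_lt_of_le hδ.1 hν.1
      rw [hG]
      simp only
      rw [intervalIntegral.integral_const_mul, int_inv_sq hR h1 hεI]
    have e2 : (∫ ν in δ..1, ∫ t in ε..1, G t ν) = ∫ ν in δ..1, (ν + R) * ((ν + R) * g 1 ν - ν) *
        ((1 - ε) / ((ν + ε * R) * (ν + R))) :=
      intervalIntegral.integral_congr fun ν hν => by
        rw [uIcc_of_le hδ.2] at hν
        exact e1 ν hν
    rw [e2]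
    refine intervalIntegral.integral_mono_on hδ.2 ?_ ?_ ?_
    · rw [← uIcc_of_le hδ.2] at hcG
      exact hcG.intervalIntegrable
    · have : ContinuousOn (fun ν => ((1 - 1 : ℝ) + R * (g 1 ν / ν) + g 1 ν - 1)
          + ε * ((1 + R) / δ)) (Icc δ 1) := by fun_prop
      rw [← uIcc_of_le hδ.2] at this
      exact this.intervalIntegrable
    · intro ν hν
      have h1 : 0 < ν := lt_of_lt_of_le hδ.1 hν.1
      have hg1 := (hg.pos 1 h1I ν ⟨h1.le, hν.2⟩).le
      have hεR : 0 < ν + ε * R := by have := mul_pos hε.1 hR; linarith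
      have hνR : 0 < ν + R := by linarith
      have k1 : (ν + R) * ((ν + R) * g 1 ν - ν) * ((1 - ε) / ((ν + ε * R) * (ν + R))) =
          ((ν + R) * g 1 ν - ν) / ν - ε * (ν + R) * ((ν + R) * g 1 ν - ν) / (ν * (ν + ε * R)) := by
        have a1 := h1.ne'
        have a2 := hεR.ne'
        have a3 := hνR.ne'
        rw [mul_div_assoc', div_sub_div _ _ a1 (mul_ne_zero a1 a2),
          div_eq_div_iff (mul_ne_zero a2 a3) (mul_ne_zero a1 (mul_ne_zero a1 a2))]
        ring
      have k2 : ((ν + R) * g 1 ν - ν) / ν = (1 - 1 : ℝ) + R * (g 1 ν / ν) + g 1 ν - 1 := by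
        field_simp
        ring
      have k3 : -(ε * (ν + R) * ((ν + R) * g 1 ν - ν) / (ν * (ν + ε * R))) ≤ ε * ((1 + R) / δ) := by
        have k4 : -(ε * (ν + R) * ((ν + R) * g 1 ν - ν) / (ν * (ν + ε * R))) ≤
            ε * (ν + R) * ν / (ν * (ν + ε * R)) := by
          rw [← neg_div]
          refine div_le_div_of_nonneg_right ?_ (by positivity)
          have : 0 ≤ ε * (ν + R) * ((ν + R) * g 1 ν) := by
            have := hε.1.le
            positivity
          nlinarith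
        have k5 : ε * (ν + R) * ν / (ν * (ν + ε * R)) = ε * ((ν + R) / (ν + ε * R)) := by
          field_simp
        have k6 : (ν + R) / (ν + ε * R) ≤ (1 + R) / δ := by
          refine div_le_div₀ (by linarith) (by linarith [hν.2]) hδ.1 ?_
          have := mul_pos hε.1 hR
          linarith [hν.1]
        rw [k5] at k4
        exact k4.trans (mul_le_mul_of_nonneg_left k6 hε.1.le)
      rw [k1, k2]
      linarith
  have hiq : IntervalIntegrable (fun ν => g 1 ν / ν) volume δ 1 := by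
    have : ContinuousOn (fun ν => g 1 ν / ν) (Icc δ 1) :=
      (hg.cont_one.mono (Icc_subset_Icc_left hδ.1.le)).div continuousOn_id
        fun ν hν => (lt_of_lt_of_le hδ.1 hν.1).ne'
    rw [← uIcc_of_le hδ.2] at this
    exact this.intervalIntegrable
  have hig := hg.slice_int h1I d01 o01
  have hE : (∫ ν in δ..1, (((1 - 1 : ℝ) + R * (g 1 ν / ν) + g 1 ν - 1) + ε * ((1 + R) / δ))) =
      R * (∫ ν in δ..1, g 1 ν / ν) + (∫ ν in δ..1, g 1 ν) - (1 - δ) + (1 - δ) * (ε * ((1 + R) / δ)) := by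
    have hre : (fun ν => (((1 - 1 : ℝ) + R * (g 1 ν / ν) + g 1 ν - 1) + ε * ((1 + R) / δ))) =
        fun ν => (R * (g 1 ν / ν) + g 1 ν) + (-1 + ε * ((1 + R) / δ)) := by
      funext ν
      ring
    rw [hre, intervalIntegral.integral_add ((hiq.const_mul R).add hig) intervalIntegrable_const,
      intervalIntegral.integral_add (hiq.const_mul R) hig, intervalIntegral.integral_const_mul,
      intervalIntegral.integral_const, smul_eq_mul]
    ring
  rw [hE] at hD
  have hadd1 := intervalIntegral.integral_add_adjacent_intervals (hg.slice_int h1I z01 d01)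
    (hg.slice_int h1I d01 o01)
  rw [← ha] at hadd1
  have hsq := Real.sqrt_nonneg (R * δ)
  have hlast : (1 - δ) * (ε * ((1 + R) / δ)) ≤ ε * ((1 + R) / δ) := by
    have : 0 ≤ ε * ((1 + R) / δ) := by
      have := hε.1.le
      positivity
    nlinarith
  have hpr : 2 * Real.sqrt (R * δ) * (∫ t in ε..1, 1 / Real.sqrt t) ≤ 4 * Real.sqrt (R * δ) := by
    nlinarith
  have hda : (δ - a) - ε * δ ≤ (1 - ε) * (δ - a) := by
    nlinarith [hε.1]
  linarith

/-- both branches -/
theorem mode_min (hg : ModeFam g) {R : ℝ} (hR : 0 < R) {δ : ℝ} (hδ : δ ∈ Ioc (0 : ℝ) 1) {e : ℝ}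
    (he : 0 < e) : ∀ᶠ ε in 𝓝[>] (0 : ℝ),
      P369.g R - min (-(1 - ∫ ν in (0 : ℝ)..1, g 1 ν) + R * (∫ ν in δ..1, g 1 ν / ν) +
        4 * Real.sqrt (R * δ)) (cm R * (R * bb R - (1 - ∫ ν in (0 : ℝ)..1, g 1 ν))) - e ≤ Pg g ε := by
  have h1 : Tendsto (fun ε : ℝ => P369.g (ε * R) + ε * (δ + (1 + R) / δ)) (𝓝[>] 0)
      (𝓝 (P369.g (0 * R) + 0 * (δ + (1 + R) / δ))) := by
    refine Tendsto.mono_left ?_ nhdsWithin_le_nhds
    have : Continuous (fun ε : ℝ => P369.g (ε * R) + ε * (δ + (1 + R) / δ)) :=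
      (a6_continuous_g.comp (continuous_id.mul continuous_const)).add
        (continuous_id.mul continuous_const)
    exact this.tendsto 0
  rw [zero_mul, a6_g_zero, zero_mul, add_zero] at h1
  filter_upwards [hg.mode_w hR he, h1.eventually (gt_mem_nhds he),
    Ioo_mem_nhdsGT (zero_lt_one (α := ℝ))] with ε h2 h3 h4
  have h5 := hg.mode_u hR hδ h4
  rcases min_choice (-(1 - ∫ ν in (0 : ℝ)..1, g 1 ν) + R * (∫ ν in δ..1, g 1 ν / ν) +
        4 * Real.sqrt (R * δ)) (cm R * (R * bb R - (1 - ∫ ν in (0 : ℝ)..1, g 1 ν))) with h | h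
  · rw [h]
    linarith
  · rw [h]
    exact h2

end ModeFam

end

end Vale.Agent.P369Z
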