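import Vale.Agent.P369.H973.Trunc

/-!
P369 (helper973): homogeneity of the Fisher information, the universal bound near `ν = 0`,
and the integrals of the boundary errors.
-/

set_option linter.unusedSectionVars false

namespace Vale.Agent.P369Z

open Matrix MeasureTheory Set Filter Topology
open scoped ComplexOrder
open Vale.Agent.P369V

noncomputable section

section abs

variable {ι : Type} [Fintype ι] [DecidableEq ι]

theorem posDef_smul {c : ℝ} (hc : 0 < c) {ρ : Matrix ι ι ℂ} (hρ : ρ.PosDef) :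
    ((c : ℂ) • ρ).PosDef := by
  have : (0 : ℂ) < (c : ℂ) := by exact_mod_cast hc
  exact hρ.smul this

theorem Kop_smul (c ν : ℝ) (ρ V : Matrix ι ι ℂ) : Kop ν ((c : ℂ) • ρ) V = (c : ℂ) • Kop ν ρ V := by
  unfold Kop
  simp only [Matrix.mul_smul, Matrix.smul_mul, smul_add, smul_smul]
  congr 2 <;> ring

theorem Qf_smul {c : ℝ} (hc : 0 < c) {ν : ℝ} (hν : ν ∈ Icc (0 : ℝ) 1) {ρ : Matrix ι ι ℂ}
    (hρ : ρ.PosDef) (Z : Matrix ι ι ℂ) :
    Qf ν ((c : ℂ) • ρ) ((c : ℂ) • Z) = c * Qf ν ρ Z := by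
  have h1 : Kinv ν ((c : ℂ) • ρ) ((c : ℂ) • Z) = Kinv ν ρ Z := by
    have h2 : (c : ℂ) • Z = Kop ν ((c : ℂ) • ρ) (Kinv ν ρ Z) := by
      rw [Kop_smul, Kop_Kinv hν hρ]
    rw [h2, Kinv_Kop hν (posDef_smul hc hρ)]
  unfold Qf
  rw [h1, conjTranspose_smul, Matrix.smul_mul, trace_smul, smul_eq_mul]
  have : star (c : ℂ) = (c : ℂ) := by simp
  rw [this, Complex.re_ofReal_mul]

theorem Qf_le_of_right {ν : ℝ} (hν : ν ∈ Ico (0 : ℝ) 1) {ρ : Matrix ι ι ℂ} (hρ : ρ.PosDef)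
    (a : Matrix ι ι ℂ) : Qf ν ρ (a * ρ) ≤ (ρ * (aᴴ * a)).trace.re / (1 - ν) := by
  have hν' : ν ∈ Icc (0 : ℝ) 1 := ⟨hν.1, hν.2.le⟩
  have hν1 : 0 < 1 - ν := by linarith [hν.2]
  have hp := pen_Kinv hν' hρ (a * ρ)
  set Y := Kinv ν ρ (a * ρ) with hY
  have h1 : Qf ν ρ (a * ρ) = (aᴴ * Y * ρ).trace.re := by
    unfold Qf
    rw [← hY, conjTranspose_mul, hρ.1.eq, Matrix.mul_assoc, Matrix.trace_mul_comm]
  -- rewrite as a form of `ρ`
  have h2 : (aᴴ * Y * ρ).trace.re = ((aᴴ)ᴴᴴ * Y * ρ).trace.re := by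
    rw [conjTranspose_conjTranspose]
  have hcs := cs_psd hρ.posSemidef aᴴ Yᴴ
  rw [conjTranspose_conjTranspose, conjTranspose_conjTranspose] at hcs
  have h3 : (a * ρ * Yᴴ).trace.re = Qf ν ρ (a * ρ) := by
    have : ((a * ρ)ᴴ * Y).trace = star ((a * ρ * Yᴴ).trace) := by
      rw [← trace_conjTranspose, conjTranspose_mul (a * ρ), conjTranspose_conjTranspose,
        Matrix.trace_mul_comm]
    unfold Qf
    rw [← hY, this]
    simp
  have h4 : (a * ρ * aᴴ).trace.re = (ρ * (aᴴ * a)).trace.re := by rw [tr_mov']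
  have h5 : (Y * ρ * Yᴴ).trace.re = (ρ * (Yᴴ * Y)).trace.re := by rw [tr_mov']
  rw [h3, h4, h5] at hcs
  have h6 : 0 ≤ (ρ * (Y * Yᴴ)).trace.re := by
    have h := psd_tr (hρ.posSemidef.conjTranspose_mul_mul_same Y)
    rwa [tr_mov] at h
  unfold pen at hp
  have h7 : (1 - ν) * (ρ * (Yᴴ * Y)).trace.re ≤ Qf ν ρ (a * ρ) := by
    nlinarith [mul_nonneg hν.1 h6]
  have hQ0 := e1_Qf_nonneg hν' hρ (a * ρ)
  have hE0 : 0 ≤ (ρ * (aᴴ * a)).trace.re := by
    have h := psd_tr (hρ.posSemidef.mul_mul_conjTranspose_same a)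
    rwa [tr_mov'] at h
  rw [le_div_iff₀ hν1]
  rcases hQ0.eq_or_lt with h8 | h8
  · rw [← h8, zero_mul]; exact hE0
  · have h9 : Qf ν ρ (a * ρ) * (Qf ν ρ (a * ρ) * (1 - ν)) ≤
        Qf ν ρ (a * ρ) * (ρ * (aᴴ * a)).trace.re := by
      calc Qf ν ρ (a * ρ) * (Qf ν ρ (a * ρ) * (1 - ν)) = Qf ν ρ (a * ρ) ^ 2 * (1 - ν) := by ring
        _ ≤ ((ρ * (aᴴ * a)).trace.re * (ρ * (Yᴴ * Y)).trace.re) * (1 - ν) :=
          mul_le_mul_of_nonneg_right hcs hν1.le
        _ = (ρ * (aᴴ * a)).trace.re * ((1 - ν) * (ρ * (Yᴴ * Y)).trace.re) := by ring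
        _ ≤ (ρ * (aᴴ * a)).trace.re * Qf ν ρ (a * ρ) := mul_le_mul_of_nonneg_left h7 hE0
        _ = _ := by ring
    exact le_of_mul_le_mul_left h9 h8

theorem one_sub_psd {B : Matrix ι ι ℂ} (hB : B.PosSemidef) (ht : B.trace.re ≤ 1) :
    (1 - B).PosSemidef := by
  set U : Matrix ι ι ℂ := (hB.1.eigenvectorUnitary : Matrix ι ι ℂ) with hUdef
  set p : ι → ℝ := hB.1.eigenvalues with hp
  have hU' : U * star U = 1 := by
    rw [hUdef]
    exact Unitary.coe_mul_star_self _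
  have hBc : B = U * diagonal (fun i => (p i : ℂ)) * star U := by
    have h := hB.1.spectral_theorem
    rw [Unitary.conjStarAlgAut_apply] at h
    exact h
  have hle : ∀ i, p i ≤ 1 := by
    intro i
    have h3 : B.trace.re = ∑ j, hB.1.eigenvalues j := by
      rw [hB.1.trace_eq_sum_eigenvalues, Complex.re_sum]
      exact Finset.sum_congr rfl fun a _ => Complex.ofReal_re _
    have h4 := Finset.single_le_sum (f := fun j => hB.1.eigenvalues j)
      (fun j _ => hB.eigenvalues_nonneg j) (Finset.mem_univ i)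
    rw [hp]
    linarith only [ht, h3, h4]
  have e : 1 - B = U * diagonal (fun i => ((1 - p i : ℝ) : ℂ)) * Uᴴ := by
    have h1 : diagonal (fun i => ((1 - p i : ℝ) : ℂ)) = 1 - diagonal (fun i => (p i : ℂ)) := by
      rw [← diagonal_one, diagonal_sub]
      congr 1
      funext i
      push_cast
      ring
    rw [h1, Matrix.mul_sub, Matrix.sub_mul, Matrix.mul_one]
    have h2 : U * Uᴴ = 1 := hU'
    rw [h2]
    congr 1
  rw [e]
  refine PosSemidef.mul_mul_conjTranspose_same ?_ U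
  refine PosSemidef.diagonal fun i => ?_
  have := hle i
  show (0 : ℂ) ≤ ((1 - p i : ℝ) : ℂ)
  exact_mod_cast (by linarith : (0 : ℝ) ≤ 1 - p i)

end abs

variable {n M : ℕ}

theorem tj_smul (c : ℝ) (ρ : Matrix (Cf n M) (Cf n M) ℂ) (j : Fin n) :
    tj n M ((c : ℂ) • ρ) j = c * tj n M ρ j := by
  unfold tj
  rw [Finset.mul_sum]
  refine Finset.sum_congr rfl fun k _ => ?_
  split_ifs
  · rw [Matrix.smul_apply, smul_eq_mul, Complex.re_ofReal_mul]
    ring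
  · simp

theorem enj_smul (c : ℝ) (ρ : Matrix (Cf n M) (Cf n M) ℂ) (j : Fin n) :
    enj n M ((c : ℂ) • ρ) j = c * enj n M ρ j := by
  unfold enj
  rw [Matrix.smul_mul, trace_smul, smul_eq_mul, Complex.re_ofReal_mul]

theorem gj_smul {c : ℝ} (hc : 0 < c) {ν : ℝ} (hν : ν ∈ Icc (0 : ℝ) 1)
    {ρ : Matrix (Cf n M) (Cf n M) ℂ} (hρ : ρ.PosDef) (j : Fin n) :
    gj n M ν ((c : ℂ) • ρ) j = c * gj n M ν ρ j := by
  unfold gj Fj
  have e : ann n M j * ((c : ℂ) • ρ) - (c : ℂ) • ρ * ann n M j =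
      (c : ℂ) • (ann n M j * ρ - ρ * ann n M j) := by
    rw [Matrix.mul_smul, Matrix.smul_mul, smul_sub]
  rw [e, Qf_smul hc hν hρ, tj_smul]
  ring

/-- the universal bound near `ν = 0` -/
theorem gj_le_near {ν : ℝ} (hν : ν ∈ Ioo (0 : ℝ) 1) {ρ : Matrix (Cf n M) (Cf n M) ℂ}
    (hρ : ρ.PosDef) (htr : ρ.trace = 1) (j : Fin n) :
    gj n M ν ρ j ≤ enj n M ρ j / (1 - ν) + 1 := by
  have hν' : ν ∈ Icc (0 : ℝ) 1 := ⟨hν.1.le, hν.2.le⟩
  have hν1 : 0 < 1 - ν := by linarith [hν.2]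
  have h1 := Qf_le_of_right ⟨hν.1.le, hν.2⟩ hρ (ann n M j)
  rw [e1_Qf_expand hν' hρ, e1_ccr, htr, Complex.one_re] at h1
  change enj n M ρ j + ν * (-1 + tj n M ρ j) + ν * (ν * Fj n M ν ρ j) ≤ enj n M ρ j / (1 - ν) at h1
  have h2 : ν * gj n M ν ρ j ≤ ν * (enj n M ρ j / (1 - ν) + 1) := by
    have e : ν * (enj n M ρ j / (1 - ν) + 1) = enj n M ρ j / (1 - ν) - enj n M ρ j + ν := by
      field_simp
      ring
    rw [e]
    unfold gj
    linarith
  exact le_of_mul_le_mul_left h2 hν.1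

/-! ### integrals -/

theorem min_le_harm {β c ν : ℝ} (hβ : 0 ≤ β) (hc : 0 < c) (hν : ν < 1) :
    min (β / (1 - ν)) (β / c) ≤ 2 * β / ((1 - ν) + c) := by
  have h1 : 0 < 1 - ν := by linarith
  rcases le_total (1 - ν) c with h | h
  · refine (min_le_right _ _).trans ?_
    rw [div_le_div_iff₀ hc (by linarith)]
    nlinarith
  · refine (min_le_left _ _).trans ?_
    rw [div_le_div_iff₀ h1 (by linarith)]
    nlinarith

theorem int_harm {c δ : ℝ} (hc : 0 < c) (hδ : δ ∈ Icc (0 : ℝ) 1) :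
    IntervalIntegrable (fun ν : ℝ => 1 / ((1 - ν) + c)) volume δ 1 ∧
    ∫ ν in δ..1, 1 / ((1 - ν) + c) ≤ Real.log (1 + 1 / c) := by
  have hd : ∀ x ∈ uIcc δ 1, HasDerivAt (fun ν : ℝ => -Real.log ((1 - ν) + c)) (1 / ((1 - x) + c)) x := by
    intro x hx
    rw [uIcc_of_le hδ.2] at hx
    have h0 : 0 < (1 - x) + c := by linarith [hx.2]
    have h1 : HasDerivAt (fun ν : ℝ => (1 - ν) + c) (-1) x := by
      simpa using ((hasDerivAt_id x).const_sub 1).add_const c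
    have h2 := (h1.log h0.ne').neg
    refine h2.congr_deriv ?_
    rw [neg_div, neg_neg]
  have hcont : ContinuousOn (fun ν : ℝ => 1 / ((1 - ν) + c)) (uIcc δ 1) := by
    rw [uIcc_of_le hδ.2]
    refine continuousOn_const.div (by fun_prop) fun x hx => ?_
    have h0 : 0 < (1 - x) + c := by linarith [hx.2]
    exact h0.ne'
  refine ⟨hcont.intervalIntegrable, ?_⟩
  rw [intervalIntegral.integral_eq_sub_of_hasDerivAt hd hcont.intervalIntegrable]
  have e : Real.log (1 + 1 / c) = Real.log (1 + c) - Real.log c := by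
    rw [← Real.log_div (by linarith) hc.ne']
    congr 1
    field_simp
    ring
  rw [e]
  have h1 : Real.log ((1 - δ) + c) ≤ Real.log (1 + c) :=
    Real.log_le_log (by linarith [hδ.2]) (by linarith [hδ.1])
  simp only [sub_self, zero_add]
  linarith

end

end Vale.Agent.P369Z
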