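import Vale.Agent.P369.H973.HotA

/-!
P369 (helper973): the truncation lemma for the box compressions of an infinite matrix.
-/

set_option linter.unusedSectionVars false

namespace Vale.Agent.P369Z

open Matrix MeasureTheory Set Filter Topology
open scoped ComplexOrder
open Vale.Agent.P369V
open Vale.Agent.P369 (Conf)
open Vale.Agent.P369A (Ker)

noncomputable section

variable {n N : ℕ}

/-- the embedding of the box -/
def emb (k : Cf n N) : Cf n (N + 1) := g8_emb (Nat.le_succ N) k

theorem cv_emb (k : Cf n N) : cv (emb k) = cv k := rfl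

theorem inc_eq (k' : Cf n (N + 1)) (k : Cf n N) : inc n N k' k = if k' = emb k then 1 else 0 := by
  unfold inc
  by_cases h : k' = emb k
  · rw [if_pos h, if_pos]
    intro i
    rw [h]
    rfl
  · rw [if_neg h, if_neg]
    intro h1
    exact h (cv_injective (funext fun i => h1 i))

theorem mul_inc {α : Type} (X : Matrix α (Cf n (N + 1)) ℂ) :
    X * inc n N = X.submatrix id emb := by
  ext i k
  rw [Matrix.mul_apply]
  simp only [inc_eq, mul_ite, mul_one, mul_zero, Finset.sum_ite_eq', Finset.mem_univ, if_true,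
    Matrix.submatrix_apply, id]

theorem incH_mul {α : Type} (X : Matrix (Cf n (N + 1)) α ℂ) :
    (inc n N)ᴴ * X = X.submatrix emb id := by
  ext k i
  rw [Matrix.mul_apply]
  have : ∀ x, (inc n N)ᴴ k x * X x i = if x = emb k then X x i else 0 := by
    intro x
    rw [conjTranspose_apply, inc_eq]
    split_ifs <;> simp
  simp only [this, Finset.sum_ite_eq', Finset.mem_univ, if_true, Matrix.submatrix_apply, id]

theorem boxm_inc (T : Ker n) : boxm N T = (inc n N)ᴴ * boxm (N + 1) T * inc n N := by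
  rw [mul_inc, incH_mul]
  ext k k'
  rfl

theorem diag_inc (f : Conf n → ℂ) :
    diagonal (fun k' : Cf n (N + 1) => f (cv k')) * inc n N =
      inc n N * diagonal (fun k : Cf n N => f (cv k)) := by
  ext k' k
  rw [diagonal_mul, mul_diagonal, inc_eq]
  split_ifs with h
  · rw [h, cv_emb]; ring
  · ring

theorem proj_inc : (1 - inc n N * (inc n N)ᴴ) * inc n N = 0 := by
  rw [Matrix.sub_mul, Matrix.one_mul, Matrix.mul_assoc, inc_isometry, Matrix.mul_one, sub_self]

theorem num_eq (M : ℕ) (j : Fin n) : (ann n M j)ᴴ * ann n M j =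
    diagonal (fun k : Cf n M => ((cv k j : ℕ) : ℂ)) := by
  rw [e4_num]
  congr 1

theorem hGb (j : Fin n) : e4G (inc n N) (ann n (N + 1) j) * ann n N j = 0 := by
  unfold e4G
  rw [Matrix.mul_assoc, Matrix.mul_assoc, ← ann_inc, ← Matrix.mul_assoc ((ann n (N + 1) j)ᴴ),
    num_eq, diag_inc (fun c => ((c j : ℕ) : ℂ)), ← Matrix.mul_assoc, proj_inc, Matrix.zero_mul]

theorem incH_annH (j : Fin n) : (inc n N)ᴴ * (ann n (N + 1) j)ᴴ = (ann n N j)ᴴ * (inc n N)ᴴ := by
  rw [← conjTranspose_mul, ann_inc, conjTranspose_mul]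

theorem hGa (j : Fin n) :
    (1 - inc n N * (inc n N)ᴴ) * (ann n (N + 1) j * e4G (inc n N) (ann n (N + 1) j)) = 0 := by
  have e1 : ann n (N + 1) j * e4G (inc n N) (ann n (N + 1) j) =
      ann n (N + 1) j * (ann n (N + 1) j)ᴴ * inc n N -
        inc n N * (ann n N j * ((ann n N j)ᴴ * ((inc n N)ᴴ * inc n N))) := by
    unfold e4G
    rw [Matrix.sub_mul, Matrix.one_mul, Matrix.sub_mul, Matrix.mul_sub]
    congr 1
    · rw [Matrix.mul_assoc]
    · have : inc n N * (inc n N)ᴴ * (ann n (N + 1) j)ᴴ * inc n N =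
          inc n N * (((inc n N)ᴴ * (ann n (N + 1) j)ᴴ) * inc n N) := by
        simp only [Matrix.mul_assoc]
      rw [this, incH_annH, ← Matrix.mul_assoc (ann n (N + 1) j), ann_inc]
      simp only [Matrix.mul_assoc]
  rw [e1, Matrix.mul_sub, e4_num']
  have e2 : diagonal (fun k : Cf n (N + 1) => if (k j : ℕ) = N + 1 then (0 : ℂ)
      else ((((k j : ℕ) : ℝ) + 1 : ℝ) : ℂ)) * inc n N = inc n N *
      diagonal (fun k : Cf n N => if (cv k j : ℕ) = N + 1 then (0 : ℂ)
        else ((((cv k j : ℕ) : ℝ) + 1 : ℝ) : ℂ)) :=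
    diag_inc (fun c => if (c j : ℕ) = N + 1 then (0 : ℂ) else ((((c j : ℕ) : ℝ) + 1 : ℝ) : ℂ))
  rw [e2, ← Matrix.mul_assoc, proj_inc, Matrix.zero_mul, ← Matrix.mul_assoc, proj_inc,
    Matrix.zero_mul, sub_zero]

theorem proj_diag : (1 - inc n N * (inc n N)ᴴ) =
    diagonal (fun k : Cf n (N + 1) => if ∀ i, (k i : ℕ) ≤ N then (0 : ℂ) else 1) := by
  classical
  ext k l
  rw [Matrix.sub_apply, Matrix.mul_apply]
  have h1 : ∀ x : Cf n N, inc n N k x * (inc n N)ᴴ x l =
      if k = emb x ∧ l = emb x then 1 else 0 := by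
    intro x
    rw [conjTranspose_apply, inc_eq, inc_eq]
    by_cases h : k = emb x
    · by_cases h' : l = emb x
      · simp [← h, h.trans h'.symm]
      · simp [h']
    · simp [h]
  simp only [h1]
  by_cases hkl : k = l
  · subst hkl
    rw [Matrix.one_apply_eq, diagonal_apply_eq]
    by_cases hb : ∀ i, (k i : ℕ) ≤ N
    · rw [if_pos hb]
      let x0 : Cf n N := fun i => ⟨(k i : ℕ), by have := hb i; omega⟩
      have hx0 : k = emb x0 := cv_injective (funext fun i => rfl)
      rw [Finset.sum_eq_single x0]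
      · simp [← hx0]
      · intro x _ hx
        rw [if_neg]
        rintro ⟨h, -⟩
        apply hx
        have h2 : emb x = emb x0 := by rw [← h, ← hx0]
        exact g8_emb_injective (Nat.le_succ N) h2
      · intro h; exact absurd (Finset.mem_univ _) h
    · rw [if_neg hb, Finset.sum_eq_zero, sub_zero]
      intro x _
      rw [if_neg]
      rintro ⟨h, -⟩
      apply hb
      intro i
      rw [h]
      exact Nat.lt_succ_iff.mp (x i).2
  · rw [Matrix.one_apply_ne hkl, diagonal_apply_ne _ hkl, Finset.sum_eq_zero, sub_zero]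
    intro x _
    rw [if_neg]
    rintro ⟨h, h'⟩
    exact hkl (h.trans h'.symm)

theorem proj_herm : (1 - inc n N * (inc n N)ᴴ)ᴴ = 1 - inc n N * (inc n N)ᴴ := by
  simp only [conjTranspose_sub, conjTranspose_one, conjTranspose_mul, conjTranspose_conjTranspose]

theorem beta_le {B : Matrix (Cf n (N + 1)) (Cf n (N + 1)) ℂ} (hB : B.PosDef) (j : Fin n) :
    ((e4G (inc n N) (ann n (N + 1) j))ᴴ * B * e4G (inc n N) (ann n (N + 1) j)).trace.re ≤
      ∑ i, tj n (N + 1) B i := by
  set P := 1 - inc n N * (inc n N)ᴴ with hP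
  set a := ann n (N + 1) j with ha
  set M := a * P * B * (a * P)ᴴ with hM
  have hMp : M.PosSemidef := hB.posSemidef.mul_mul_conjTranspose_same (a * P)
  have h1 : (e4G (inc n N) a)ᴴ * B * e4G (inc n N) a = (inc n N)ᴴ * M * inc n N := by
    have hPh : Pᴴ = P := proj_herm
    rw [hM]
    unfold e4G
    rw [← hP]
    simp only [conjTranspose_mul, conjTranspose_conjTranspose, Matrix.mul_assoc, hPh]
  have h2 : ((inc n N)ᴴ * M * inc n N).trace.re ≤ M.trace.re := by
    have h3 := psd_tr (hMp.conjTranspose_mul_mul_same P)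
    have h4 : (Pᴴ * M * P).trace = M.trace - ((inc n N)ᴴ * M * inc n N).trace := by
      have hPP : P * P = P := by
        rw [hP, Matrix.mul_sub, Matrix.mul_one, ← Matrix.mul_assoc, proj_inc, Matrix.zero_mul,
          sub_zero]
      have hPh : Pᴴ = P := proj_herm
      rw [hPh, Matrix.mul_assoc, Matrix.trace_mul_comm, Matrix.mul_assoc, hPP, hP, Matrix.mul_sub,
        Matrix.mul_one, trace_sub]
      congr 1
      rw [← Matrix.mul_assoc, Matrix.trace_mul_comm, ← Matrix.mul_assoc]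
    rw [h4, Complex.sub_re] at h3
    linarith
  rw [h1]
  refine h2.trans ?_
  have h5 : M.trace = (B * (P * (aᴴ * a) * P)).trace := by
    have hPh : Pᴴ = P := proj_herm
    rw [hM, conjTranspose_mul, hPh]
    have : a * P * B * (P * aᴴ) = (a * P) * (B * (P * aᴴ)) := by simp only [Matrix.mul_assoc]
    rw [this, Matrix.trace_mul_comm]
    simp only [Matrix.mul_assoc]
  have h6 : P * (aᴴ * a) * P = diagonal (fun k : Cf n (N + 1) =>
      if ∀ i, (k i : ℕ) ≤ N then (0 : ℂ) else (((k j : ℕ) : ℝ) : ℂ)) := by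
    rw [hP, proj_diag, ha, e4_num, diagonal_mul_diagonal, diagonal_mul_diagonal]
    congr 1
    funext k
    split_ifs <;> simp
  rw [h5, h6]
  have h7 : (B * diagonal (fun k : Cf n (N + 1) =>
      if ∀ i, (k i : ℕ) ≤ N then (0 : ℂ) else (((k j : ℕ) : ℝ) : ℂ))).trace.re =
      ∑ k : Cf n (N + 1), if ∀ i, (k i : ℕ) ≤ N then 0 else (k j : ℕ) * (B k k).re := by
    rw [Matrix.trace, Complex.re_sum]
    refine Finset.sum_congr rfl fun k _ => ?_
    rw [Matrix.diag_apply, Matrix.mul_diagonal]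
    split_ifs
    · simp
    · rw [Complex.re_mul_ofReal]; ring
  rw [h7]
  unfold tj
  rw [Finset.sum_comm]
  refine Finset.sum_le_sum fun k _ => ?_
  have hd : 0 < (B k k).re := by
    have := hB.diag_pos (i := k)
    exact (Complex.lt_def.1 this).1
  have hterm : ∀ i : Fin n, 0 ≤ (if (k i : ℕ) = N + 1 then (((N + 1 : ℕ) : ℝ) + 1) * (B k k).re else 0) := by
    intro i
    split_ifs
    · positivity
    · exact le_rfl
  split_ifs with h
  · exact Finset.sum_nonneg fun i _ => hterm i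
  · push Not at h
    obtain ⟨i, hi⟩ := h
    have hi2 : (k i : ℕ) = N + 1 := by have := (k i).2; omega
    refine le_trans ?_ (Finset.single_le_sum (f := fun i : Fin n => if (k i : ℕ) = N + 1 then
      (((N + 1 : ℕ) : ℝ) + 1) * (B k k).re else 0) (fun i _ => hterm i) (Finset.mem_univ i))
    simp only [hi2, if_true]
    have hkj : ((k j : ℕ) : ℝ) ≤ ((N + 1 : ℕ) : ℝ) := by
      have := (k j).2
      exact_mod_cast (by omega : (k j : ℕ) ≤ N + 1)
    nlinarith

/-- the truncation lemma for box compressions -/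
theorem trunc_box {T : Ker n} (hpd : ∀ N, (boxm N T).PosDef) (htr : ∀ N, (boxm N T).trace.re ≤ 1)
    {lam : ℝ} (hlam : 0 < lam)
    (hAl : (boxm N T - (lam : ℂ) • (1 : Matrix (Cf n N) (Cf n N) ℂ)).PosSemidef) (j : Fin n)
    {ν : ℝ} (hν : ν ∈ Ioo (0 : ℝ) 1) {Fi : ℝ}
    (hFi : ∀ V : Matrix (Cf n (N + 1)) (Cf n (N + 1)) ℂ, inc n N * (inc n N)ᴴ * V = V →
      2 * ((ann n (N + 1) j * boxm (N + 1) T - boxm (N + 1) T * ann n (N + 1) j)ᴴ * V).trace.re -
        pen ν (boxm (N + 1) T) V ≤ Fi)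
    {k : ℝ} (hk : 0 < k) :
    gj n N ν (boxm N T) j / ν ≤ (1 + k) * Fi + (1 + 1 / k) *
      (2 * min ((∑ i, tj n (N + 1) (boxm (N + 1) T) i) / (1 - ν))
        ((∑ i, tj n (N + 1) (boxm (N + 1) T) i) / (ν * lam)) +
        2 * ((∑ i, tj n (N + 1) (boxm (N + 1) T) i) / ν ^ 2)) := by
  have h := trunc_abs (inc_isometry (n := n) (M := N)) (ann_inc j) (hGb j) (hGa j)
    (hpd (N + 1)).posSemidef (one_sub_psd (hpd (N + 1)).posSemidef (htr (N + 1))) (boxm_inc T)
    (hpd N) hlam hAl hν hFi hk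
  have hG : (boxm N T * ((e4G (inc n N) (ann n (N + 1) j))ᴴ *
      e4G (inc n N) (ann n (N + 1) j))).trace.re = tj n N (boxm N T) j := by
    rw [e4_G_sq (inc_isometry (n := n) (M := N)) (ann_inc j) (ccr_inc j), tj_eq]
  rw [hG] at h
  have hβ := beta_le (hpd (N + 1)) j
  have hν0 := hν.1
  have hν1 : 0 < 1 - ν := by linarith [hν.2]
  have e1 : gj n N ν (boxm N T) j / ν = Qf ν (boxm N T) (ann n N j * boxm N T - boxm N T * ann n N j) +
      1 / ν * tj n N (boxm N T) j := by
    unfold gj Fj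
    field_simp
    ring
  rw [e1]
  refine h.trans ?_
  have hk1 : 0 ≤ 1 + 1 / k := by positivity
  gcongr

end

end Vale.Agent.P369Z
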