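import Vale.Agent.P369.H973.HotB
import Vale.Agent.P369.H817.BoxT
import Vale.Agent.P369.H400.BoxVar
import Vale.Agent.P369.H326.Iso

/-!
P369 (helper973): the loss-path inequality for the amplified states, by passing to the limit in
the inequality for the box compressions.
-/

set_option linter.unusedSectionVars false

namespace Vale.Agent.P369Z

open Matrix MeasureTheory Set Filter Topology
open scoped ComplexOrder
open Vale.Agent.P369V
open Vale.Agent.P369 (Conf)
open Vale.Agent.P369A (Ker cut Reg Sl)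
open Vale.Agent.P369F (FXj FXj_nonneg FXj_mono int_mono_w int_FXj)
open Vale.Agent.P369N (bb cm)
open Vale.Agent.P369W (CkV)

noncomputable section

variable {n : ℕ}

/-- the boundary mass of the box of side `N + 1` -/
def bet (T : Ker n) (N : ℕ) : ℝ := ∑ i, tj n (N + 1) (boxm (N + 1) T) i

/-- the total boundary error -/
def errN (T : Ker n) (c q δ κ : ℝ) (N : ℕ) : ℝ :=
  (1 + 1 / κ) * (4 * bet T N * Real.log (1 + 1 / (δ * (c * q ^ N))) + 2 * bet T N / δ ^ 2)

theorem bet_nonneg {T : Ker n} (hT : ∀ X, (cut X T).PosDef) (N : ℕ) : 0 ≤ bet T N :=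
  Finset.sum_nonneg fun i _ => (tj_pos (P369V8.boxm_posDef hT (N + 1)) i).le

theorem point_le {T : Ker n} {E : ℝ} (hR : Reg T E) {c q : ℝ} (hc : 0 < c) (hq : 0 < q)
    (hlow : ∀ N : ℕ, (boxm N T - ((c * q ^ N : ℝ) : ℂ) •
      (1 : Matrix (Cf n N) (Cf n N) ℂ)).PosSemidef) (N : ℕ) (j : Fin n) {δ κ ν : ℝ}
    (hδ : 0 < δ) (hκ : 0 < κ) (hν : ν ∈ Ico δ 1) :
    gj n N ν (boxm N T) j / ν ≤ (1 + κ) * FXj ν T (n * (N + 1)) j +
      (1 + 1 / κ) * (4 * bet T N * (1 / ((1 - ν) + δ * (c * q ^ N))) + 2 * bet T N / δ ^ 2) := by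
  have hν0 : 0 < ν := lt_of_lt_of_le hδ hν.1
  have hν1 : 0 < 1 - ν := by linarith [hν.2]
  have hl : 0 < c * q ^ N := by positivity
  have hb := bet_nonneg hR.pos N
  have h := trunc_box (fun N => P369V8.boxm_posDef hR.pos N) (fun N => P369V8.boxm_trace_le hR N)
    hl (hlow N) j (ν := ν) ⟨hν0, hν.2⟩
    (fun V hV => P369W.box_var hR.pos N j (ν := ν) ⟨hν0.le, hν.2.le⟩ V hV) hκ
  refine h.trans ?_
  have h1 : min ((∑ i, tj n (N + 1) (boxm (N + 1) T) i) / (1 - ν))
      ((∑ i, tj n (N + 1) (boxm (N + 1) T) i) / (ν * (c * q ^ N))) ≤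
      2 * bet T N / ((1 - ν) + δ * (c * q ^ N)) := by
    refine le_trans ?_ (min_le_harm hb (by positivity : 0 < δ * (c * q ^ N)) hν.2)
    refine min_le_min le_rfl ?_
    exact div_le_div_of_nonneg_left hb (by positivity)
      (mul_le_mul_of_nonneg_right hν.1 hl.le)
  have h2 : (∑ i, tj n (N + 1) (boxm (N + 1) T) i) / ν ^ 2 ≤ bet T N / δ ^ 2 :=
    div_le_div_of_nonneg_left hb (by positivity) (pow_le_pow_left₀ hδ.le hν.1 2)
  have hk1 : 0 ≤ 1 + 1 / κ := by positivity
  have h3 := mul_le_mul_of_nonneg_left (add_le_add (mul_le_mul_of_nonneg_left h1 (zero_le_two (α := ℝ)))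
    (mul_le_mul_of_nonneg_left h2 (zero_le_two (α := ℝ)))) hk1
  have e1 : 2 * (2 * bet T N / ((1 - ν) + δ * (c * q ^ N))) =
      4 * bet T N * (1 / ((1 - ν) + δ * (c * q ^ N))) := by ring
  have e2 : 2 * (bet T N / δ ^ 2) = 2 * bet T N / δ ^ 2 := by ring
  rw [e1, e2] at h3
  linarith

/-- the integral against a weight `w ∈ [0,1]` -/
theorem int_le {T : Ker n} {E : ℝ} (hR : Reg T E) {c q : ℝ} (hc : 0 < c) (hq : 0 < q)
    (hlow : ∀ N : ℕ, (boxm N T - ((c * q ^ N : ℝ) : ℂ) •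
      (1 : Matrix (Cf n N) (Cf n N) ℂ)).PosSemidef) (N : ℕ) (j : Fin n) {δ κ : ℝ}
    (hδ : δ ∈ Ioo (0 : ℝ) 1) (hκ : 0 < κ) {w : ℝ → ℝ} (hw : Continuous w)
    (hw0 : ∀ m ∈ Icc (0 : ℝ) 1, 0 ≤ w m) (hw1 : ∀ m ∈ Icc (0 : ℝ) 1, w m ≤ 1) :
    ∫ ν in δ..1, w ν * (gj n N ν (boxm N T) j / ν) ≤
      (1 + κ) * (∫ m in (0 : ℝ)..1, w m * FXj m T (n * (N + 1)) j) + errN T c q δ κ N := by
  have hb := bet_nonneg hR.pos N
  have hl : 0 < c * q ^ N := by positivity
  have hpd := P369V8.boxm_posDef hR.pos N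
  have hk1 : 0 ≤ 1 + 1 / κ := by positivity
  have hsub : Icc δ 1 ⊆ Icc (0 : ℝ) 1 := Icc_subset_Icc_left hδ.1.le
  have hci : ContinuousOn (fun ν => gj n N ν (boxm N T) j / ν) (Icc δ 1) :=
    ((gj_cont_nu hpd j).mono hsub).div continuousOn_id fun ν hν => (lt_of_lt_of_le hδ.1 hν.1).ne'
  have iL : IntervalIntegrable (fun ν => w ν * (gj n N ν (boxm N T) j / ν)) volume δ 1 := by
    refine ContinuousOn.intervalIntegrable ?_
    rw [uIcc_of_le hδ.2.le]
    exact hw.continuousOn.mul hci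
  have iF0 : IntervalIntegrable (fun m => w m * FXj m T (n * (N + 1)) j) volume 0 1 :=
    (int_FXj hR.pos (n * (N + 1)) j).continuousOn_mul hw.continuousOn
  have iF : IntervalIntegrable (fun m => w m * FXj m T (n * (N + 1)) j) volume δ 1 :=
    iF0.mono_set (by rw [uIcc_of_le hδ.2.le, uIcc_of_le zero_le_one]; exact hsub)
  have iF1 : IntervalIntegrable (fun m => w m * FXj m T (n * (N + 1)) j) volume 0 δ :=
    iF0.mono_set (by
      rw [uIcc_of_le hδ.1.le, uIcc_of_le zero_le_one]; exact Icc_subset_Icc_right hδ.2.le)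
  obtain ⟨iH, vH⟩ := int_harm (c := δ * (c * q ^ N)) (by have := hδ.1; positivity)
    (δ := δ) ⟨hδ.1.le, hδ.2.le⟩
  have iE : IntervalIntegrable (fun ν => (1 + 1 / κ) *
      (4 * bet T N * (1 / ((1 - ν) + δ * (c * q ^ N))) + 2 * bet T N / δ ^ 2)) volume δ 1 :=
    ((iH.const_mul _).add intervalIntegrable_const).const_mul _
  have h1 : ∫ ν in δ..1, w ν * (gj n N ν (boxm N T) j / ν) ≤
      ∫ ν in δ..1, ((1 + κ) * (w ν * FXj ν T (n * (N + 1)) j) + (1 + 1 / κ) *
      (4 * bet T N * (1 / ((1 - ν) + δ * (c * q ^ N))) + 2 * bet T N / δ ^ 2)) := by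
    refine intervalIntegral.integral_mono_on_of_le_Ioo hδ.2.le iL ((iF.const_mul _).add iE) ?_
    intro ν hν
    have hνI : ν ∈ Icc (0 : ℝ) 1 := ⟨hδ.1.le.trans hν.1.le, hν.2.le⟩
    have h2 := point_le hR hc hq hlow N j hδ.1 hκ (ν := ν) ⟨hν.1.le, hν.2⟩
    have h3 := mul_le_mul_of_nonneg_left h2 (hw0 ν hνI)
    have h4 : 0 ≤ (1 + 1 / κ) *
      (4 * bet T N * (1 / ((1 - ν) + δ * (c * q ^ N))) + 2 * bet T N / δ ^ 2) := by
      have : 0 < (1 - ν) + δ * (c * q ^ N) := by
        have := mul_pos hδ.1 hl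
        linarith [hν.2]
      positivity
    have h5 := mul_le_mul_of_nonneg_right (hw1 ν hνI) h4
    rw [one_mul] at h5
    linarith
  refine h1.trans ?_
  rw [intervalIntegral.integral_add (iF.const_mul _) iE, intervalIntegral.integral_const_mul,
    intervalIntegral.integral_const_mul, intervalIntegral.integral_add (iH.const_mul _)
      intervalIntegrable_const, intervalIntegral.integral_const_mul, intervalIntegral.integral_const,
    smul_eq_mul]
  have h6 : ∫ m in δ..1, w m * FXj m T (n * (N + 1)) j ≤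
      ∫ m in (0 : ℝ)..1, w m * FXj m T (n * (N + 1)) j := by
    rw [← intervalIntegral.integral_add_adjacent_intervals iF1 iF]
    have : 0 ≤ ∫ m in (0 : ℝ)..δ, w m * FXj m T (n * (N + 1)) j :=
      intervalIntegral.integral_nonneg hδ.1.le fun m hm => by
        have hmI : m ∈ Icc (0 : ℝ) 1 := ⟨hm.1, hm.2.trans hδ.2.le⟩
        exact mul_nonneg (hw0 m hmI) (FXj_nonneg hR.pos hmI _ j)
    linarith
  have h7 : (1 - δ) * (2 * bet T N / δ ^ 2) ≤ 2 * bet T N / δ ^ 2 := by
    have : 0 ≤ 2 * bet T N / δ ^ 2 := by positivity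
    nlinarith [hδ.1]
  have h8 : 4 * bet T N * (∫ ν in δ..1, 1 / ((1 - ν) + δ * (c * q ^ N))) ≤
      4 * bet T N * Real.log (1 + 1 / (δ * (c * q ^ N))) :=
    mul_le_mul_of_nonneg_left vH (by positivity)
  unfold errN
  have h9 := mul_le_mul_of_nonneg_left (add_le_add h8 h7) hk1
  have h10 := mul_le_mul_of_nonneg_left h6 (show 0 ≤ 1 + κ by linarith)
  linarith

/-- the boundary errors tend to zero -/
theorem tendsto_errN {T : Ker n} (hT : ∀ X, (cut X T).PosDef) {c q δ κ : ℝ} (hc : 0 < c) (hq : 0 < q)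
    (hq1 : q ≤ 1) (hδ : 0 < δ) {C y : ℝ} (hC : 0 < C) (hy0 : 0 < y) (hy1 : y < 1)
    (htail : ∀ (N : ℕ) (j : Fin n), tj n N (boxm N T) j ≤ C * ((N : ℝ) + 1) ^ (n + 1) * y ^ N) :
    Tendsto (errN T c q δ κ) atTop (𝓝 0) := by
  have hb0 := bet_nonneg hT
  have hb : ∀ N, bet T N ≤ n * C * ((N : ℝ) + 2) ^ (n + 1) * y ^ (N + 1) := by
    intro N
    unfold bet
    calc _ ≤ ∑ _i : Fin n, C * ((N : ℝ) + 2) ^ (n + 1) * y ^ (N + 1) := by
          refine Finset.sum_le_sum fun i _ => ?_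
          have := htail (N + 1) i
          push_cast at this
          have e : (N : ℝ) + 1 + 1 = (N : ℝ) + 2 := by ring
          rwa [e] at this
      _ = _ := by
          rw [Finset.sum_const, Finset.card_univ, Fintype.card_fin, nsmul_eq_mul]; ring
  -- polynomial times exponential
  have hpoly : ∀ p : ℕ, Tendsto (fun N : ℕ => ((N : ℝ) + 2) ^ p * y ^ (N + 1)) atTop (𝓝 0) := by
    intro p
    have h1 := tendsto_pow_const_mul_const_pow_of_abs_lt_one p (r := y) (by rwa [abs_of_pos hy0])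
    have h2 := (h1.comp (tendsto_add_atTop_nat 2)).div_const y
    rw [zero_div] at h2
    refine h2.congr fun N => ?_
    simp only [Function.comp]
    push_cast
    rw [pow_succ y (N + 1)]
    field_simp
  set L0 := Real.log (1 + 1 / (δ * c)) with hL0
  set L1 := Real.log (1 / q) with hL1
  have hL00 : 0 ≤ L0 := Real.log_nonneg (by have : 0 < 1 / (δ * c) := by positivity
                                            linarith)
  have hL10 : 0 ≤ L1 := Real.log_nonneg (by rw [le_div_iff₀ hq]; linarith)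
  have hlog : ∀ N : ℕ, Real.log (1 + 1 / (δ * (c * q ^ N))) ≤ (L0 + L1) * ((N : ℝ) + 2) := by
    intro N
    have hqN : 0 < q ^ N := by positivity
    have hqN1 : q ^ N ≤ 1 := pow_le_one₀ hq.le hq1
    have h1 : 1 + 1 / (δ * (c * q ^ N)) ≤ (1 + 1 / (δ * c)) * (1 / q) ^ N := by
      have e : (1 + 1 / (δ * c)) * (1 / q) ^ N = 1 / q ^ N + 1 / (δ * (c * q ^ N)) := by
        rw [_root_.one_div_pow]
        field_simp
      rw [e]
      have : 1 ≤ 1 / q ^ N := by rw [le_div_iff₀ hqN]; linarith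
      linarith
    have h0 : 0 < 1 + 1 / (δ * (c * q ^ N)) := by positivity
    have h2 := Real.log_le_log h0 h1
    rw [Real.log_mul (by positivity) (by positivity), Real.log_pow] at h2
    have hN : (0 : ℝ) ≤ N := Nat.cast_nonneg N
    nlinarith [mul_nonneg hN hL00]
  have hlog0 : ∀ N : ℕ, 0 ≤ Real.log (1 + 1 / (δ * (c * q ^ N))) := fun N =>
    Real.log_nonneg (by have : 0 < 1 / (δ * (c * q ^ N)) := by positivity
                        linarith)
  have t1 : Tendsto (fun N => bet T N * Real.log (1 + 1 / (δ * (c * q ^ N)))) atTop (𝓝 0) := by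
    have h1 := (hpoly (n + 2)).const_mul (n * C * (L0 + L1))
    rw [mul_zero] at h1
    refine squeeze_zero (fun N => mul_nonneg (hb0 N) (hlog0 N)) (fun N => ?_) h1
    have h2 := mul_le_mul (hb N) (hlog N) (hlog0 N) (by positivity)
    refine h2.trans (le_of_eq ?_)
    ring
  have t2 : Tendsto (fun N => bet T N) atTop (𝓝 0) := by
    have h1 := (hpoly (n + 1)).const_mul (n * C)
    rw [mul_zero] at h1
    refine squeeze_zero hb0 (fun N => ?_) h1
    refine (hb N).trans (le_of_eq ?_)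
    ring
  have h3 : Tendsto (fun N => (1 + 1 / κ) * (4 * (bet T N * Real.log (1 + 1 / (δ * (c * q ^ N)))) +
      2 * bet T N / δ ^ 2)) atTop (𝓝 ((1 + 1 / κ) * (4 * 0 + 2 * 0 / δ ^ 2))) :=
    ((t1.const_mul 4).add ((t2.const_mul 2).div_const _)).const_mul _
  simp only [mul_zero, zero_div, add_zero] at h3
  refine h3.congr fun N => ?_
  unfold errN
  ring

/-- the hot-side isoperimetric inequality, via box compressions -/
theorem isoHot_CkV {M : ℕ} (hn : 1 ≤ n)
    {ρ : Matrix (Fin n → Fin (M + 1)) (Fin n → Fin (M + 1)) ℂ} (hρ : ρ.PosDef)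
    (ht : ρ.trace = 1) {k : Fin n → ℝ} (hk : ∀ j, 1 < k j) : P369N.IsoHot (CkV ρ k) := by
  intro gp gm hgp hgm r hr
  set T : Ker n := CkV ρ k with hT
  have hR := P369W.reg_CkV hρ ht hk
  set E : ℝ := ∑ j, (k j * P369W.en0j ρ j + (k j - 1)) with hE
  have hRT : Reg T E := hR
  obtain ⟨c, q, hc, hq0, hq1, hlow⟩ := P369V8.boxm_lower (ρ := ρ) hρ hk
  obtain ⟨C, y, hC, hy0, hy1, htail⟩ := P369V8.tj_boxm_CkV (ρ := ρ) hρ ht hk
  -- the monotone limits bound every cutoff
  have hgp' : ∀ j Y, ∫ m in (0 : ℝ)..1, (1 - m) * FXj m T Y j ≤ gp j := fun j Y =>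
    (int_mono_w hRT.pos (w := fun m => 1 - m) (by fun_prop) (fun m hm => by linarith [hm.2]) j).ge_of_tendsto
      (hgp j) Y
  have hgm' : ∀ j Y, ∫ m in (0 : ℝ)..1, m * FXj m T Y j ≤ gm j := fun j Y =>
    (int_mono_w hRT.pos (w := fun m => m) (by fun_prop) (fun m hm => hm.1) j).ge_of_tendsto
      (hgm j) Y
  have hgp0 : ∀ j, 0 ≤ gp j := fun j => le_trans (intervalIntegral.integral_nonneg zero_le_one
    fun m hm => mul_nonneg (by linarith [hm.2]) (FXj_nonneg hRT.pos hm 0 j)) (hgp' j 0)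
  have hgm0 : ∀ j, 0 ≤ gm j := fun j => le_trans (intervalIntegral.integral_nonneg zero_le_one
    fun m hm => mul_nonneg hm.1 (FXj_nonneg hRT.pos hm 0 j)) (hgm' j 0)
  have hE0 : 0 ≤ E := by
    have hn0 : 0 < n := hn
    have h := P369V8.enj_boxm_le hRT 0 ⟨0, hn0⟩
    refine le_trans ?_ h
    unfold enj
    have h2 := psd_tr ((P369V8.boxm_posDef hRT.pos 0).posSemidef.mul_mul_conjTranspose_same
      (ann n 0 ⟨0, hn0⟩))
    rwa [tr_mov'] at h2
  -- the main estimate, for all parameters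
  have key : ∀ δ ∈ Ioc (0 : ℝ) (1 / 2), ∀ κ > (0 : ℝ), ∀ e > (0 : ℝ),
      ∑ j, (P369.g (r j) - min (-(1 - (δ * (2 * E + 1) + (1 + κ) * gm j + e)) +
        r j * ((1 + κ) * (gp j + gm j) + e) + 4 * Real.sqrt (r j * δ))
        (cm (r j) * (r j * bb (r j) - (1 - (δ * (2 * E + 1) + (1 + κ) * gm j + e))))) ≤
        Sl T + e := by
    intro δ hδ κ hκ e he
    have hδ1 : δ ∈ Ioo (0 : ℝ) 1 := ⟨hδ.1, by linarith [hδ.2]⟩
    have herr := tendsto_errN (T := T) hRT.pos (κ := κ) hc hq0 hq1 hδ.1 hC hy0 hy1 htail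
    have htr := P369V8.tendsto_boxm_trace hRT
    have hinv : Tendsto (fun N => ((boxm N T).trace.re)⁻¹) atTop (𝓝 1) := by
      have := htr.inv₀ one_ne_zero
      rwa [inv_one] at this
    -- `a_N` and `b_N`
    have hA : ∀ᶠ N in atTop, ∀ j, δ * (2 * E * ((boxm N T).trace.re)⁻¹ + 1) +
        ((boxm N T).trace.re)⁻¹ * ((1 + κ) * gm j + errN T c q δ κ N) <
        δ * (2 * E + 1) + (1 + κ) * gm j + e := by
      rw [eventually_all]
      intro j
      have h1 : Tendsto (fun N => δ * (2 * E * ((boxm N T).trace.re)⁻¹ + 1) +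
        ((boxm N T).trace.re)⁻¹ * ((1 + κ) * gm j + errN T c q δ κ N)) atTop
          (𝓝 (δ * (2 * E * 1 + 1) + 1 * ((1 + κ) * gm j + 0))) :=
        (((hinv.const_mul _).add_const _).const_mul _).add (hinv.mul (herr.const_add _))
      exact h1.eventually (gt_mem_nhds (by linarith))
    have hB : ∀ᶠ N in atTop, ∀ j, ((boxm N T).trace.re)⁻¹ * ((1 + κ) * (gp j + gm j) +
        errN T c q δ κ N) < (1 + κ) * (gp j + gm j) + e := by
      rw [eventually_all]
      intro j
      have h1 : Tendsto (fun N => ((boxm N T).trace.re)⁻¹ * ((1 + κ) * (gp j + gm j) +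
        errN T c q δ κ N)) atTop (𝓝 (1 * ((1 + κ) * (gp j + gm j) + 0))) :=
        hinv.mul (herr.const_add _)
      exact h1.eventually (gt_mem_nhds (by linarith))
    obtain ⟨N, hA1, hB1, hent⟩ := (hA.and (hB.and (P369V8.ent_boxm_norm_lim hRT he))).exists
    set τ := (boxm N T).trace.re with hτ
    have hτ0 : 0 < τ := P369V8.boxm_trace_pos hRT.pos N
    have hτi : 0 < τ⁻¹ := inv_pos.2 hτ0
    have hpdA := P369V8.boxm_posDef hRT.pos N
    have hpd := P369V8.boxm_norm_posDef hRT.pos N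
    have htrN := P369V8.boxm_norm_trace hRT.pos N
    rw [← hτ] at hpd htrN
    have hcs : ((τ⁻¹ : ℝ) • boxm N T) = ((τ⁻¹ : ℝ) : ℂ) • boxm N T := by
      ext i j
      simp
    rw [hcs] at hpd htrN hent
    have hg : ∀ ν ∈ Icc (0 : ℝ) 1, ∀ j, gj n N ν (((τ⁻¹ : ℝ) : ℂ) • boxm N T) j =
        τ⁻¹ * gj n N ν (boxm N T) j := fun ν hν j => gj_smul hτi hν hpdA j
    have z01 : (0 : ℝ) ∈ Icc (0 : ℝ) 1 := ⟨le_rfl, zero_le_one⟩
    have hcA : ∀ j, ContinuousOn (fun ν => gj n N ν (boxm N T) j) (Icc 0 1) := fun j =>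
      gj_cont_nu hpdA j
    have hcN : ∀ j, ContinuousOn (fun ν => gj n N ν (((τ⁻¹ : ℝ) : ℂ) • boxm N T) j) (Icc 0 1) :=
      fun j => gj_cont_nu hpd j
    have iN : ∀ j, ∀ {a b : ℝ}, a ∈ Icc (0 : ℝ) 1 → b ∈ Icc (0 : ℝ) 1 → IntervalIntegrable
        (fun ν => gj n N ν (((τ⁻¹ : ℝ) : ℂ) • boxm N T) j) volume a b := fun j {a b} ha hb =>
      ((hcN j).mono (uIcc_subset_Icc ha hb)).intervalIntegrable
    have hδI : δ ∈ Icc (0 : ℝ) 1 := ⟨hδ.1.le, hδ1.2.le⟩
    have o01 : (1 : ℝ) ∈ Icc (0 : ℝ) 1 := ⟨zero_le_one, le_rfl⟩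
    -- bound of `∫ g`
    have ha : ∀ j, (∫ ν in (0 : ℝ)..1, gj n N ν (((τ⁻¹ : ℝ) : ℂ) • boxm N T) j) ≤
        δ * (2 * E + 1) + (1 + κ) * gm j + e := by
      intro j
      rw [← intervalIntegral.integral_add_adjacent_intervals (iN j z01 hδI) (iN j hδI o01)]
      have h1 : (∫ ν in (0 : ℝ)..δ, gj n N ν (((τ⁻¹ : ℝ) : ℂ) • boxm N T) j) ≤
          δ * (2 * E * τ⁻¹ + 1) := by
        have h2 : (∫ ν in (0 : ℝ)..δ, gj n N ν (((τ⁻¹ : ℝ) : ℂ) • boxm N T) j) ≤
            ∫ _ν in (0 : ℝ)..δ, (2 * E * τ⁻¹ + 1) := by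
          refine intervalIntegral.integral_mono_on_of_le_Ioo hδ.1.le (iN j z01 hδI)
            intervalIntegrable_const ?_
          intro ν hν
          have hν2 : ν ∈ Ioo (0 : ℝ) 1 := ⟨hν.1, hν.2.trans hδ1.2⟩
          have h3 := gj_le_near hν2 hpd htrN j
          have h4 : enj n N (((τ⁻¹ : ℝ) : ℂ) • boxm N T) j ≤ τ⁻¹ * E := by
            rw [enj_smul]
            exact mul_le_mul_of_nonneg_left (P369V8.enj_boxm_le hRT N j) hτi.le
          have h5 : enj n N (((τ⁻¹ : ℝ) : ℂ) • boxm N T) j / (1 - ν) ≤ 2 * E * τ⁻¹ := by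
            have h6 : 1 / 2 ≤ 1 - ν := by linarith [hν.2, hδ.2]
            rw [div_le_iff₀ (by linarith)]
            have : 0 ≤ τ⁻¹ * E := by positivity
            nlinarith
          linarith
        rw [intervalIntegral.integral_const, smul_eq_mul, sub_zero] at h2
        exact h2
      have h2 : (∫ ν in δ..1, gj n N ν (((τ⁻¹ : ℝ) : ℂ) • boxm N T) j) ≤
          τ⁻¹ * ((1 + κ) * gm j + errN T c q δ κ N) := by
        have e1 : (∫ ν in δ..1, gj n N ν (((τ⁻¹ : ℝ) : ℂ) • boxm N T) j) =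
            τ⁻¹ * ∫ ν in δ..1, ν * (gj n N ν (boxm N T) j / ν) := by
          rw [← intervalIntegral.integral_const_mul]
          refine intervalIntegral.integral_congr fun ν hν => ?_
          rw [uIcc_of_le hδ1.2.le] at hν
          have h3 : 0 < ν := lt_of_lt_of_le hδ.1 hν.1
          rw [hg ν ⟨h3.le, hν.2⟩ j]
          field_simp
        rw [e1]
        refine mul_le_mul_of_nonneg_left ?_ hτi.le
        refine (int_le hRT hc hq0 hlow N j hδ1 hκ (w := fun m => m) (by fun_prop)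
          (fun m hm => hm.1) (fun m hm => hm.2)).trans ?_
        have := mul_le_mul_of_nonneg_left (hgm' j (n * (N + 1))) (show 0 ≤ 1 + κ by linarith)
        linarith
      have h3 := hA1 j
      linarith
    have hb : ∀ j, (∫ ν in δ..1, gj n N ν (((τ⁻¹ : ℝ) : ℂ) • boxm N T) j / ν) ≤
        (1 + κ) * (gp j + gm j) + e := by
      intro j
      have h2 : (∫ ν in δ..1, gj n N ν (((τ⁻¹ : ℝ) : ℂ) • boxm N T) j / ν) ≤
          τ⁻¹ * ((1 + κ) * (gp j + gm j) + errN T c q δ κ N) := by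
        have e1 : (∫ ν in δ..1, gj n N ν (((τ⁻¹ : ℝ) : ℂ) • boxm N T) j / ν) =
            τ⁻¹ * ∫ ν in δ..1, (1 : ℝ) * (gj n N ν (boxm N T) j / ν) := by
          rw [← intervalIntegral.integral_const_mul]
          refine intervalIntegral.integral_congr fun ν hν => ?_
          rw [uIcc_of_le hδ1.2.le] at hν
          have h3 : 0 < ν := lt_of_lt_of_le hδ.1 hν.1
          rw [hg ν ⟨h3.le, hν.2⟩ j]
          ring
        rw [e1]
        refine mul_le_mul_of_nonneg_left ?_ hτi.le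
        refine (int_le hRT hc hq0 hlow N j hδ1 hκ (w := fun _ => 1) (by fun_prop)
          (fun m _ => zero_le_one) (fun m _ => le_rfl)).trans ?_
        have i1 : IntervalIntegrable (fun m => (1 - m) * FXj m T (n * (N + 1)) j) volume 0 1 :=
          (int_FXj hRT.pos (n * (N + 1)) j).continuousOn_mul
            (by fun_prop : Continuous fun m : ℝ => 1 - m).continuousOn
        have i2 : IntervalIntegrable (fun m => m * FXj m T (n * (N + 1)) j) volume 0 1 :=
          (int_FXj hRT.pos (n * (N + 1)) j).continuousOn_mul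
            (by fun_prop : Continuous fun m : ℝ => m).continuousOn
        have e2 : (∫ m in (0 : ℝ)..1, (1 : ℝ) * FXj m T (n * (N + 1)) j) =
            (∫ m in (0 : ℝ)..1, (1 - m) * FXj m T (n * (N + 1)) j) +
              ∫ m in (0 : ℝ)..1, m * FXj m T (n * (N + 1)) j := by
          rw [← intervalIntegral.integral_add i1 i2]
          congr 1
          funext m
          ring
        rw [e2]
        have := mul_le_mul_of_nonneg_left (add_le_add (hgp' j (n * (N + 1))) (hgm' j (n * (N + 1))))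
          (show 0 ≤ 1 + κ by linarith)
        linarith
      have h3 := hB1 j
      linarith
    have hfin := fin_bound hn hpd htrN hr (δ := δ) ⟨hδ.1, hδ1.2.le⟩
    refine le_trans (Finset.sum_le_sum fun j _ => ?_) (hfin.trans hent)
    refine sub_le_sub_left (min_le_min ?_ ?_) _
    · have h1 := mul_le_mul_of_nonneg_left (hb j) (hr j).le
      have h2 := ha j
      linarith
    · have h1 : 0 ≤ cm (r j) := zero_le_one.trans (one_le_cm (hr j))
      refine mul_le_mul_of_nonneg_left ?_ h1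
      have h2 := ha j
      linarith
  -- the limit
  have hlim : Tendsto (fun t : ℝ => ∑ j, (P369.g (r j) -
      min (-(1 - (t * (2 * E + 1) + (1 + t) * gm j + t)) +
        r j * ((1 + t) * (gp j + gm j) + t) + 4 * Real.sqrt (r j * t))
        (cm (r j) * (r j * bb (r j) - (1 - (t * (2 * E + 1) + (1 + t) * gm j + t)))))) (𝓝[>] 0)
      (𝓝 (∑ j, (P369.g (r j) - min (-(1 - (0 * (2 * E + 1) + (1 + 0) * gm j + 0)) +
        r j * ((1 + 0) * (gp j + gm j) + 0) + 4 * Real.sqrt (r j * 0))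
        (cm (r j) * (r j * bb (r j) - (1 - (0 * (2 * E + 1) + (1 + 0) * gm j + 0))))))) := by
    refine Tendsto.mono_left ?_ nhdsWithin_le_nhds
    refine Continuous.tendsto ?_ 0
    refine continuous_finsetSum _ fun j _ => ?_
    refine continuous_const.sub (Continuous.min ?_ ?_)
    · exact (by fun_prop : Continuous fun t : ℝ => -(1 - (t * (2 * E + 1) + (1 + t) * gm j + t)) +
        r j * ((1 + t) * (gp j + gm j) + t)).add
        (continuous_const.mul (Real.continuous_sqrt.comp (continuous_const.mul continuous_id)))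
    · fun_prop
  have hrhs : Tendsto (fun t : ℝ => Sl T + t) (𝓝[>] 0) (𝓝 (Sl T + 0)) := by
    refine Tendsto.mono_left ?_ nhdsWithin_le_nhds
    exact (by fun_prop : Continuous fun t : ℝ => Sl T + t).tendsto 0
  have h1 := le_of_tendsto_of_tendsto hlim hrhs (by
    filter_upwards [Ioc_mem_nhdsGT (show (0 : ℝ) < 1 / 2 by norm_num)] with t ht'
    exact key t ht' t ht'.1 t ht'.1)
  rw [add_zero (Sl T)] at h1
  refine le_trans (le_of_eq ?_) h1
  refine Finset.sum_congr rfl fun j _ => ?_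
  have e1 : r j * (1 + gp j) - (r j + 1) * (1 - gm j) = -(1 - (0 * (2 * E + 1) + (1 + 0) * gm j + 0)) +
      r j * ((1 + 0) * (gp j + gm j) + 0) + 4 * Real.sqrt (r j * 0) := by
    rw [mul_zero, Real.sqrt_zero]
    ring
  have e2 : (1 - gm j) = (1 - (0 * (2 * E + 1) + (1 + 0) * gm j + 0)) := by ring
  rw [e1, ← e2]

end

end Vale.Agent.P369Z
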