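import Vale.Agent.P369.Bd3.B2
import Vale.Agent.P369.Aniso.Scalar

/-!
P369, finite part of the loss-path inequality with mode-dependent references (helper973):
the difference form of the scalar isoperimetric inequality.
-/

namespace Vale.Agent.P369Z

open Matrix MeasureTheory Set Filter Topology
open Vale.Agent.P369V
open Vale.Agent.P369 (Conf)

noncomputable section

theorem iso_scalar_diff {g : ℝ → ℝ → ℝ} {S : ℝ → ℝ} {R : ℝ} (hR : 0 < R)
    (hcont : ContinuousOn (Function.uncurry g) (Ioc (0 : ℝ) 1 ×ˢ Icc (0 : ℝ) 1))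
    (hpos : ∀ t ∈ Ioc (0 : ℝ) 1, ∀ ν ∈ Icc (0 : ℝ) 1, 0 < g t ν)
    (hconv : ∀ t ∈ Ioc (0 : ℝ) 1, ∀ ν₀ ∈ Ioc (0 : ℝ) 1, ∀ ν₁ ∈ Ioc (0 : ℝ) 1, ∀ w₀ w₁ s : ℝ,
      0 ≤ w₀ → 0 ≤ w₁ → 0 ≤ s → s ≤ 1 →
      ((1 - s) * w₀ + s * w₁) ^ 2 * (g t ((1 - s) * ν₀ + s * ν₁) / ((1 - s) * ν₀ + s * ν₁)) ≤
        (1 - s) * (w₀ ^ 2 * (g t ν₀ / ν₀)) + s * (w₁ ^ 2 * (g t ν₁ / ν₁)))
    (hdp : ∀ t ∈ Ioc (0 : ℝ) 1, ∀ ν ∈ Ioc (0 : ℝ) 1, ∀ r : ℝ, 0 ≤ r →
      (ν + t * r) ^ 2 * (g t ν / ν) ≤ (1 - t) * ν + t * ((ν + r) ^ 2 * (g 1 ν / ν)))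
    (hsa : ∀ l ∈ Ioc (0 : ℝ) 1, ∀ x y : ℝ, 0 < x → 0 < y → x + y ≤ 1 →
      x * g x (x * l) + y * g y (y * l) ≤ (x + y) * g (x + y) ((x + y) * l))
    (hSc : ContinuousOn S (Ioc 0 1))
    (hSd : ∀ t ∈ Ioo (0 : ℝ) 1, HasDerivAt S ((1 - ∫ ν in (0 : ℝ)..1, g t ν) / t) t)
    (hJ : 1 - ∫ ν in (0 : ℝ)..1, g 1 ν = R * Real.log (1 + 1 / R)) {e : ℝ} (he : 0 < e) :
    ∀ᶠ ε in 𝓝[>] (0 : ℝ), P369.g R - e ≤ S 1 - S ε := by
  have h1I : (1 : ℝ) ∈ Ioc (0 : ℝ) 1 := ⟨one_pos, le_rfl⟩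
  have hslice : ∀ t ∈ Ioc (0 : ℝ) 1, ContinuousOn (g t) (Icc 0 1) := fun t ht =>
    hcont.comp (f := fun l => (t, l)) (by fun_prop) (fun l hl => ⟨ht, hl⟩)
  have hg1 := hslice 1 h1I
  have hint : ∫ ν in (0 : ℝ)..1, g 1 ν = ∫ ν in (0 : ℝ)..1, ν / (ν + R) := by
    rw [a6_int_frac hR]; linarith
  obtain ⟨θ, hθ, hθ1, hθ2⟩ := exists_theta hR hg1 (hpos 1 h1I 0 ⟨le_rfl, zero_le_one⟩) hint
  have hθ0 : 0 < θ := hθ.1
  have hθI : θ ∈ Ioc (0 : ℝ) 1 := ⟨hθ.1, hθ.2.le⟩
  have hθR : 0 < θ + R := by linarith only [hR, hθ0]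
  -- the three ingredients
  set a : ℝ → ℝ := fun t => ∫ l in (0 : ℝ)..θ, g t (t * l) with ha
  set a0 : ℝ := ∫ l in (0 : ℝ)..θ, l / (l + R) with ha0
  set q : ℝ → ℝ := fun t => t * (θ + R) ^ 2 * g t (t * θ) / θ with hq
  set T : ℝ := ∫ ν in θ..1, (g 1 ν - ν / (ν + R)) with hT
  have hmap : ∀ t ∈ Ioc (0 : ℝ) 1, ∀ l ∈ Icc (0 : ℝ) 1, t * l ∈ Icc (0 : ℝ) 1 := fun t ht l hl =>
    ⟨mul_nonneg ht.1.le hl.1, mul_le_one₀ ht.2 hl.1 hl.2⟩
  have hFc : ContinuousOn (Function.uncurry fun t l => g t (t * l))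
      (Ioc (0 : ℝ) 1 ×ˢ Icc (0 : ℝ) θ) := by
    refine hcont.comp (f := fun p : ℝ × ℝ => (p.1, p.1 * p.2)) (by fun_prop) ?_
    rintro ⟨t, l⟩ ⟨ht, hl⟩
    exact ⟨ht, hmap t ht l ⟨hl.1, hl.2.trans hθ.2.le⟩⟩
  have hac : ContinuousOn a (Ioc 0 1) := a6_param hθ0.le hFc
  have hqc : ContinuousOn q (Ioc 0 1) := by
    have h1 : ContinuousOn (fun t => g t (t * θ)) (Ioc 0 1) :=
      hcont.comp (f := fun t : ℝ => (t, t * θ)) (by fun_prop)
        (fun t ht => ⟨ht, hmap t ht θ ⟨hθ0.le, hθ.2.le⟩⟩)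
    have h2 : ContinuousOn (fun t : ℝ => t * (θ + R) ^ 2) (Ioc 0 1) := by fun_prop
    exact (h2.mul h1).div_const θ
  have hsl : ∀ t ∈ Ioc (0 : ℝ) 1, ContinuousOn (fun l => g t (t * l)) (Icc 0 θ) := fun t ht =>
    hFc.comp (f := fun l => (t, l)) (by fun_prop) (fun l hl => ⟨ht, hl⟩)
  have hii : ∀ t ∈ Ioc (0 : ℝ) 1, IntervalIntegrable (fun l => g t (t * l)) volume 0 θ := fun t ht => by
    have := hsl t ht
    rw [← uIcc_of_le hθ0.le] at this
    exact this.intervalIntegrable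
  -- superadditivity of `A(t) = t a(t)`
  set A : ℝ → ℝ := fun t => t * a t with hA
  have hAc : ContinuousOn A (Ioc 0 1) := continuousOn_id.mul hac
  have ha_nonneg : ∀ t ∈ Ioc (0 : ℝ) 1, 0 ≤ a t := fun t ht =>
    intervalIntegral.integral_nonneg hθ0.le fun l hl =>
      (hpos t ht _ (hmap t ht l ⟨hl.1, hl.2.trans hθ.2.le⟩)).le
  have hA0 : ∀ t ∈ Ioc (0 : ℝ) 1, 0 ≤ A t := fun t ht => mul_nonneg ht.1.le (ha_nonneg t ht)
  have hAs : ∀ x y, 0 < x → 0 < y → x + y ≤ 1 → A x + A y ≤ A (x + y) := by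
    intro x y hx hy hxy
    have hxI : x ∈ Ioc (0 : ℝ) 1 := ⟨hx, by linarith only [hy, hxy]⟩
    have hyI : y ∈ Ioc (0 : ℝ) 1 := ⟨hy, by linarith only [hx, hxy]⟩
    have hxyI : x + y ∈ Ioc (0 : ℝ) 1 := ⟨by linarith only [hx, hy], hxy⟩
    have e1 : A x + A y = ∫ l in (0 : ℝ)..θ, (x * g x (x * l) + y * g y (y * l)) := by
      rw [intervalIntegral.integral_add ((hii x hxI).const_mul x) ((hii y hyI).const_mul y),
        intervalIntegral.integral_const_mul, intervalIntegral.integral_const_mul]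
    have e2 : A (x + y) = ∫ l in (0 : ℝ)..θ, (x + y) * g (x + y) ((x + y) * l) := by
      rw [intervalIntegral.integral_const_mul]
    rw [e1, e2]
    refine intervalIntegral.integral_mono_on_of_le_Ioo hθ0.le
      (((hii x hxI).const_mul x).add ((hii y hyI).const_mul y)) ((hii _ hxyI).const_mul _)
      fun l hl => ?_
    exact hsa l ⟨hl.1, by linarith only [hl.2, hθ.2]⟩ x y hx hy hxy
  have hq0 : ∀ t ∈ Ioc (0 : ℝ) 1, 0 ≤ q t := fun t ht => by
    have h1 := (hpos t ht _ (hmap t ht θ ⟨hθ0.le, hθ.2.le⟩)).le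
    have h2 := ht.1.le
    change 0 ≤ t * (θ + R) ^ 2 * g t (t * θ) / θ
    (clear * - h2 hθ0 hR h1; positivity)
  have hqs : ∀ x y, 0 < x → 0 < y → x + y ≤ 1 → q x + q y ≤ q (x + y) := by
    intro x y hx hy hxy
    have h1 := hsa θ hθI x y hx hy hxy
    have h2 : 0 ≤ (θ + R) ^ 2 / θ := by positivity
    have h3 := mul_le_mul_of_nonneg_left h1 h2
    calc q x + q y = (θ + R) ^ 2 / θ * (x * g x (x * θ) + y * g y (y * θ)) := by
          rw [hq]; ring
      _ ≤ (θ + R) ^ 2 / θ * ((x + y) * g (x + y) ((x + y) * θ)) := h3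
      _ = q (x + y) := by rw [hq]; ring
  have hq1 : q 1 = θ + R := by
    change 1 * (θ + R) ^ 2 * g 1 (1 * θ) / θ = θ + R
    rw [one_mul, one_mul, hθ1]
    (clear * - hθ0 hR; field_simp)
  have hA1 : A 1 - a0 + T = 0 := by
    have hc1 : ContinuousOn (fun ν => g 1 ν - ν / (ν + R)) (Icc 0 1) := by
      refine hg1.sub (continuousOn_id.div (by fun_prop) fun x hx => ?_)
      have : 0 < x + R := by linarith only [hR, hx.1]
      exact this.ne'
    have hfr : ∀ b ∈ Icc (0 : ℝ) 1, IntervalIntegrable (fun ν : ℝ => ν / (ν + R)) volume 0 b := by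
      intro b hb
      refine ContinuousOn.intervalIntegrable ?_
      rw [uIcc_of_le hb.1]
      refine continuousOn_id.div (by fun_prop) fun x hx => ?_
      have : 0 < x + R := by linarith only [hR, hx.1]
      exact this.ne'
    have i1 : IntervalIntegrable (fun ν => g 1 ν - ν / (ν + R)) volume 0 θ :=
      ContinuousOn.intervalIntegrable (by
        rw [uIcc_of_le hθ0.le]; exact hc1.mono (Icc_subset_Icc_right hθ.2.le))
    have i2 : IntervalIntegrable (fun ν => g 1 ν - ν / (ν + R)) volume θ 1 :=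
      ContinuousOn.intervalIntegrable (by
        rw [uIcc_of_le hθ.2.le]; exact hc1.mono (Icc_subset_Icc_left hθ0.le))
    have i3 : IntervalIntegrable (g 1) volume 0 θ :=
      ContinuousOn.intervalIntegrable (by
        rw [uIcc_of_le hθ0.le]; exact hg1.mono (Icc_subset_Icc_right hθ.2.le))
    have i4 : IntervalIntegrable (g 1) volume 0 1 :=
      ContinuousOn.intervalIntegrable (by rw [uIcc_of_le zero_le_one]; exact hg1)
    have e1 : A 1 = ∫ l in (0 : ℝ)..θ, g 1 l := by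
      change 1 * (∫ l in (0 : ℝ)..θ, g 1 (1 * l)) = _
      simp only [one_mul]
    have e2 : A 1 - a0 = ∫ ν in (0 : ℝ)..θ, (g 1 ν - ν / (ν + R)) := by
      rw [e1, ha0, ← intervalIntegral.integral_sub i3 (hfr θ ⟨hθ0.le, hθ.2.le⟩)]
    rw [e2, hT, intervalIntegral.integral_add_adjacent_intervals i1 i2,
      intervalIntegral.integral_sub i4 (hfr 1 ⟨zero_le_one, le_rfl⟩), hint, sub_self]
  -- the estimate for every `ε`
  have key : ∀ ε ∈ Ioo (0 : ℝ) 1,
      P369.g R - P369.g (ε * R) - ε * A 1 - ε ^ 2 * (Om θ R ε / ε) * (θ + R) ≤ S 1 - S ε := by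
    intro ε hε
    have hε0 : 0 < ε := hε.1
    have hsubI : Icc ε 1 ⊆ Ioc (0 : ℝ) 1 := fun t ht => ⟨lt_of_lt_of_le hε0 ht.1, ht.2⟩
    set φ : ℝ → ℝ := fun t => -(a t - a0) - Om θ R t / t * (q t - t * q 1) - T with hφ
    have hOm : AntitoneOn (fun t => Om θ R t / t) (Icc ε 1) :=
      (Om_div_antitone hθ0 hR.le).mono hsubI
    have iOm : IntervalIntegrable (fun t => Om θ R t / t) volume ε 1 := by
      refine AntitoneOn.intervalIntegrable ?_
      rw [uIcc_of_le hε.2.le]; exact hOm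
    have cq : ContinuousOn (fun t => q t - t * q 1) (uIcc ε 1) := by
      rw [uIcc_of_le hε.2.le]
      exact (hqc.mono hsubI).sub (by fun_prop)
    have i2 : IntervalIntegrable (fun t => Om θ R t / t * (q t - t * q 1)) volume ε 1 :=
      iOm.mul_continuousOn cq
    have i1 : IntervalIntegrable (fun t => a t - a0) volume ε 1 := by
      refine ContinuousOn.intervalIntegrable ?_
      rw [uIcc_of_le hε.2.le]
      exact (hac.mono hsubI).sub continuousOn_const
    have i1n : IntervalIntegrable (fun t => -(a t - a0)) volume ε 1 := i1.neg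
    have iφ : IntervalIntegrable φ volume ε 1 := (i1n.sub i2).sub intervalIntegrable_const
    have hD : (∫ t in ε..1, φ t) ≤ (S 1 - P369.g (1 * R)) - (S ε - P369.g (ε * R)) := by
      refine intervalIntegral.integral_le_sub_of_hasDeriv_right_of_le (g := fun t =>
        S t - P369.g (t * R)) (g' := fun t => (1 - ∫ ν in (0 : ℝ)..1, g t ν) / t
          - Real.log (1 + 1 / (t * R)) * R) hε.2.le ?_ ?_ ?_ ?_
      · refine (hSc.mono hsubI).sub ?_
        exact (a6_continuous_g.comp (continuous_id.mul continuous_const)).continuousOn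
      · intro t ht
        have ht' : t ∈ Ioo (0 : ℝ) 1 := ⟨lt_trans hε0 ht.1, ht.2⟩
        have h1 : HasDerivAt (fun s : ℝ => s * R) R t := by
          simpa only [id_eq, one_mul] using (hasDerivAt_id t).mul_const R
        have h2 : HasDerivAt (fun s : ℝ => P369.g (s * R)) (Real.log (1 + 1 / (t * R)) * R) t :=
          HasDerivAt.comp (h := fun s : ℝ => s * R) (h₂ := P369.g) t
            (a6_hasDerivAt_g (mul_pos ht'.1 hR)) h1
        exact ((hSd t ht').sub h2).hasDerivWithinAt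
      · exact (intervalIntegrable_iff_integrableOn_Icc_of_le hε.2.le).1 iφ
      · intro t ht
        have ht' : t ∈ Ioo (0 : ℝ) 1 := ⟨lt_trans hε0 ht.1, ht.2⟩
        have htI : t ∈ Ioc (0 : ℝ) 1 := ⟨ht'.1, ht'.2.le⟩
        have h1 := pointwise_bound hR hθ ht' (hslice t htI) hg1 (hconv t htI) (hdp t htI) hθ1 hθ2
        rw [hφ]
        simp only
        rw [hq1]
        linarith only [h1]
    have e1 : (∫ t in ε..1, φ t) = -(∫ t in ε..1, (a t - a0))
        - (∫ t in ε..1, Om θ R t / t * (q t - t * q 1)) - (1 - ε) * T := by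
      rw [hφ, intervalIntegral.integral_sub (i1n.sub i2) intervalIntegrable_const,
        intervalIntegral.integral_sub i1n i2, intervalIntegral.integral_neg,
        intervalIntegral.integral_const, smul_eq_mul]
    have hs1 := super_int hqc hq0 hqs hε0 hε.2.le hOm (by
      have := Om_nonneg hθ0 hR.le h1I
      simpa only [div_one, ge_iff_le] using this)
    have hw1 : AntitoneOn (fun t : ℝ => 1 / t) (Icc ε 1) := fun x hx y hy hxy =>
      one_div_le_one_div_of_le (lt_of_lt_of_le hε0 hx.1) hxy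
    have hs2 := super_int hAc hA0 hAs hε0 hε.2.le hw1 (by norm_num)
    have e2 : (∫ t in ε..1, 1 / t * (A t - t * A 1)) = ∫ t in ε..1, (a t - A 1) := by
      refine intervalIntegral.integral_congr fun t ht => ?_
      rw [uIcc_of_le hε.2.le] at ht
      have ht0 : t ≠ 0 := (lt_of_lt_of_le hε0 ht.1).ne'
      change 1 / t * (t * a t - t * A 1) = a t - A 1
      (clear * - ht0; field_simp)
    have e3 : (∫ t in ε..1, (a t - a0)) = (∫ t in ε..1, (a t - A 1)) + (1 - ε) * (A 1 - a0) := by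
      have i3 : IntervalIntegrable (fun t => a t - A 1) volume ε 1 := by
        refine ContinuousOn.intervalIntegrable ?_
        rw [uIcc_of_le hε.2.le]
        exact (hac.mono hsubI).sub continuousOn_const
      have h1 : (∫ t in ε..1, (a t - a0)) = ∫ t in ε..1, ((a t - A 1) + (A 1 - a0)) := by
        congr 1
        funext t
        ring
      rw [h1, intervalIntegral.integral_add i3 intervalIntegrable_const,
        intervalIntegral.integral_const, smul_eq_mul]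
    rw [e2] at hs2
    rw [hq1] at hs1 e1
    have hε1 : ε ^ 2 * (1 / ε) * A 1 = ε * A 1 := by (clear * - hε0; field_simp)
    rw [hε1] at hs2
    rw [one_mul, e1, e3] at hD
    have hT' : A 1 - a0 = -T := by linarith only [hA1]
    rw [hT'] at hD
    nlinarith only [hD, hs1, hs2]
  -- the limit `ε → 0`
  have hlim : Tendsto (fun ε : ℝ => P369.g R - P369.g (ε * R) - ε * A 1
      - ε ^ 2 * (Om θ R ε / ε) * (θ + R)) (𝓝[>] 0)
      (𝓝 (P369.g R - P369.g (0 * R) - 0 * A 1 - 0 * (θ + R))) := by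
    have h1 : Tendsto (fun ε : ℝ => P369.g R - P369.g (ε * R) - ε * A 1) (𝓝[>] 0)
        (𝓝 (P369.g R - P369.g (0 * R) - 0 * A 1)) := by
      refine Tendsto.mono_left ?_ nhdsWithin_le_nhds
      have : Continuous (fun ε : ℝ => P369.g R - P369.g (ε * R) - ε * A 1) :=
        (continuous_const.sub (a6_continuous_g.comp (continuous_id.mul continuous_const))).sub
          (continuous_id.mul continuous_const)
      exact this.tendsto 0
    exact h1.sub ((tendsto_Om hθ0 hR.le).mul_const _)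
  rw [zero_mul, a6_g_zero, zero_mul, zero_mul, sub_zero, sub_zero, sub_zero] at hlim
  have hev := hlim.eventually (lt_mem_nhds (show P369.g R - e < P369.g R by linarith))
  filter_upwards [hev, Ioo_mem_nhdsGT (zero_lt_one (α := ℝ))] with ε h1 h2
  exact h1.le.trans (key ε h2)

end

end Vale.Agent.P369Z
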