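import Vale.Agent.P369.H973.Box

/-!
P369 (helper973): the truncation lemma. The Fisher information of a compression is bounded by
the Fisher information of the full matrix plus explicit boundary errors.
-/

set_option linter.unusedSectionVars false

namespace Vale.Agent.P369Z

open Matrix
open scoped ComplexOrder
open Vale.Agent.P369V

noncomputable section

section abs

variable {ι κ : Type} [Fintype ι] [DecidableEq ι] [Fintype κ] [DecidableEq κ]

theorem psd_tr {m : Type} [Fintype m] {X : Matrix m m ℂ} (hX : X.PosSemidef) : 0 ≤ X.trace.re :=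
  (Complex.le_def.1 hX.trace_nonneg).1

theorem conj_tr {α β : Type} [Fintype α] [Fintype β] {B : Matrix β β ℂ} (hB : B.IsHermitian)
    (P Q : Matrix β α ℂ) : (Pᴴ * B * Q).trace.re = (Qᴴ * B * P).trace.re := by
  have : (Pᴴ * B * Q).trace = star ((Qᴴ * B * P).trace) := by
    rw [← trace_conjTranspose]
    simp only [conjTranspose_mul, conjTranspose_conjTranspose, hB.eq, Matrix.mul_assoc]
  rw [this]
  simp

theorem cs_psd {α β : Type} [Fintype α] [Fintype β] {B : Matrix β β ℂ} (hB : B.PosSemidef)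
    (P Q : Matrix β α ℂ) :
    (Pᴴ * B * Q).trace.re ^ 2 ≤ (Pᴴ * B * P).trace.re * (Qᴴ * B * Q).trace.re := by
  have h : ∀ s : ℝ, 0 ≤ (Qᴴ * B * Q).trace.re * (s * s) + 2 * (Pᴴ * B * Q).trace.re * s +
      (Pᴴ * B * P).trace.re := by
    intro s
    have h1 := psd_tr (hB.conjTranspose_mul_mul_same (P + (s : ℂ) • Q))
    have h2 : ((P + (s : ℂ) • Q)ᴴ * B * (P + (s : ℂ) • Q)).trace.re =
        (Qᴴ * B * Q).trace.re * (s * s) + ((Pᴴ * B * Q).trace.re + (Qᴴ * B * P).trace.re) * s +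
      (Pᴴ * B * P).trace.re := by
      have hs : star (s : ℂ) = s := by simp
      simp only [conjTranspose_add, conjTranspose_smul, hs, Matrix.add_mul, Matrix.mul_add,
        Matrix.smul_mul, Matrix.mul_smul, trace_add, trace_smul, smul_eq_mul, Complex.add_re,
        Complex.re_ofReal_mul]
      ring
    rw [h2, conj_tr hB.1 Q P] at h1
    linarith
  have h3 := discrim_le_zero h
  unfold discrim at h3
  nlinarith

variable {I : Matrix κ ι ℂ} {a : Matrix κ κ ℂ} {b : Matrix ι ι ℂ}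

/-- the test matrix -/
def Wt (ν : ℝ) (I : Matrix κ ι ℂ) (a : Matrix κ κ ℂ) (b A : Matrix ι ι ℂ) : Matrix ι κ ℂ :=
  Kinv ν A (b * A - A * b) * Iᴴ - ((1 / ν : ℝ) : ℂ) • (e4G I a)ᴴ

theorem IhG (hI : Iᴴ * I = 1) : Iᴴ * e4G I a = 0 := by
  unfold e4G
  have : Iᴴ * (1 - I * Iᴴ) = 0 := by
    rw [Matrix.mul_sub, Matrix.mul_one, ← Matrix.mul_assoc, hI, Matrix.one_mul, sub_self]
  rw [← Matrix.mul_assoc, ← Matrix.mul_assoc, this, Matrix.zero_mul, Matrix.zero_mul]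

theorem GhI (hI : Iᴴ * I = 1) : (e4G I a)ᴴ * I = 0 := by
  have h := IhG (a := a) hI
  have h2 := congrArg conjTranspose h
  rwa [conjTranspose_mul, conjTranspose_conjTranspose, conjTranspose_zero] at h2

theorem Iha (hI : Iᴴ * I = 1) (hab : a * I = I * b) : Iᴴ * a = b * Iᴴ + (e4G I a)ᴴ := by
  unfold e4G
  simp only [conjTranspose_mul, conjTranspose_sub, conjTranspose_one, conjTranspose_conjTranspose]
  rw [Matrix.mul_sub, Matrix.mul_one, Matrix.mul_sub]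
  have h1 : Iᴴ * (a * (I * Iᴴ)) = b * Iᴴ := by
    rw [← Matrix.mul_assoc a, hab, Matrix.mul_assoc, ← Matrix.mul_assoc Iᴴ, hI, Matrix.one_mul]
  rw [h1]
  abel

theorem IhaG (hI : Iᴴ * I = 1) (hab : a * I = I * b) :
    Iᴴ * (a * e4G I a) = (e4G I a)ᴴ * e4G I a := by
  rw [← Matrix.mul_assoc, Iha hI hab, Matrix.add_mul, Matrix.mul_assoc, IhG hI, Matrix.mul_zero,
    zero_add]

/-- the linear part -/
theorem trunc_lin (hI : Iᴴ * I = 1) (hab : a * I = I * b) (hGb : e4G I a * b = 0)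
    (hGa : (1 - I * Iᴴ) * (a * e4G I a) = 0) {B : Matrix κ κ ℂ}
    {A : Matrix ι ι ℂ} (hA : A = Iᴴ * B * I) {ν : ℝ} :
    ((a * B - B * a)ᴴ * (I * Wt ν I a b A)).trace.re =
      Qf ν A (b * A - A * b) + 1 / ν * (A * ((e4G I a)ᴴ * e4G I a)).trace.re +
        ((e4G I a)ᴴ * B * (Wt ν I a b A)ᴴ).trace.re := by
  set Y := Kinv ν A (b * A - A * b) with hY
  set G := e4G I a with hG
  set W := Wt ν I a b A with hW
  have hWd : W = Y * Iᴴ - ((1 / ν : ℝ) : ℂ) • Gᴴ := rfl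
  have hWh : Wᴴ = I * Yᴴ - ((1 / ν : ℝ) : ℂ) • G := by
    rw [hWd]
    simp only [conjTranspose_sub, conjTranspose_mul, conjTranspose_smul, conjTranspose_conjTranspose,
      RCLike.star_def, Complex.conj_ofReal]
  have haG : a * G = I * (Gᴴ * G) := by
    have h1 : (1 - I * Iᴴ) * (a * G) = a * G - I * (Iᴴ * (a * G)) := by
      rw [Matrix.sub_mul, Matrix.one_mul, Matrix.mul_assoc]
    rw [h1, IhaG hI hab] at hGa
    exact sub_eq_zero.1 hGa
  -- pass to the adjoint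
  have h0 : ((a * B - B * a)ᴴ * (I * W)).trace.re = (Wᴴ * Iᴴ * (a * B - B * a)).trace.re := by
    have : ((a * B - B * a)ᴴ * (I * W)).trace = star ((Wᴴ * Iᴴ * (a * B - B * a)).trace) := by
      rw [← trace_conjTranspose]
      simp only [conjTranspose_mul, conjTranspose_conjTranspose]
    rw [this]; simp
  have t1 : (Wᴴ * Iᴴ * (a * B)).trace = (Yᴴ * (b * A)).trace + (Gᴴ * B * Wᴴ).trace := by
    have e1 : Wᴴ * Iᴴ * (a * B) = Wᴴ * (b * Iᴴ) * B + Wᴴ * Gᴴ * B := by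
      rw [Matrix.mul_assoc Wᴴ, ← Matrix.mul_assoc Iᴴ, Iha hI hab, Matrix.add_mul, Matrix.mul_add]
      simp only [Matrix.mul_assoc, hG]
    have e2 : Wᴴ * (b * Iᴴ) * B = I * Yᴴ * (b * Iᴴ) * B := by
      rw [hWh, Matrix.sub_mul, Matrix.smul_mul, ← Matrix.mul_assoc G, hGb, Matrix.zero_mul,
        smul_zero, sub_zero]
    have e3 : (I * Yᴴ * (b * Iᴴ) * B).trace = (Yᴴ * (b * A)).trace := by
      rw [Matrix.mul_assoc, Matrix.mul_assoc, Matrix.trace_mul_comm, hA]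
      simp only [Matrix.mul_assoc]
    have e4 : (Wᴴ * Gᴴ * B).trace = (Gᴴ * B * Wᴴ).trace := by
      rw [Matrix.mul_assoc, Matrix.trace_mul_comm]
    rw [e1, trace_add, e2, e3, e4]
  have t2 : (Wᴴ * Iᴴ * (B * a)).trace = (Yᴴ * (A * b)).trace -
      ((1 / ν : ℝ) : ℂ) * (A * (Gᴴ * G)).trace := by
    have e1 : (Wᴴ * Iᴴ * (B * a)).trace = (I * Yᴴ * Iᴴ * (B * a)).trace -
        ((1 / ν : ℝ) : ℂ) * (G * Iᴴ * (B * a)).trace := by
      rw [hWh, Matrix.sub_mul, Matrix.sub_mul, trace_sub, Matrix.smul_mul, Matrix.smul_mul,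
        trace_smul, smul_eq_mul]
    have e2 : (I * Yᴴ * Iᴴ * (B * a)).trace = (Yᴴ * (A * b)).trace := by
      rw [Matrix.mul_assoc, Matrix.mul_assoc, Matrix.trace_mul_comm]
      have : Yᴴ * (Iᴴ * (B * a)) * I = Yᴴ * (Iᴴ * B * I * b) := by
        simp only [Matrix.mul_assoc, hab]
      rw [this, ← hA]
    have e3 : (G * Iᴴ * (B * a)).trace = (A * (Gᴴ * G)).trace := by
      rw [Matrix.mul_assoc, Matrix.trace_mul_comm]
      have : Iᴴ * (B * a) * G = Iᴴ * B * I * (Gᴴ * G) := by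
        simp only [Matrix.mul_assoc, haG]
      rw [this, ← hA]
    rw [e1, e2, e3]
  have hQ : Qf ν A (b * A - A * b) = (Yᴴ * (b * A - A * b)).trace.re := by
    have : ((b * A - A * b)ᴴ * Y).trace = star ((Yᴴ * (b * A - A * b)).trace) := by
      rw [← trace_conjTranspose]
      simp only [conjTranspose_mul, conjTranspose_conjTranspose]
    unfold Qf
    rw [← hY, this]; simp
  rw [h0, Matrix.mul_sub, trace_sub, t1, t2, hQ, Matrix.mul_sub, trace_sub]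
  simp only [Complex.add_re, Complex.sub_re, Complex.re_ofReal_mul]
  ring

/-- the penalty -/
theorem trunc_pen (hI : Iᴴ * I = 1) {B : Matrix κ κ ℂ} (hB : B.IsHermitian)
    {A : Matrix ι ι ℂ} (hA : A = Iᴴ * B * I) (hAp : A.PosDef) {ν : ℝ} (hν : ν ∈ Set.Ioc (0 : ℝ) 1) :
    pen ν B (I * Wt ν I a b A) =
      Qf ν A (b * A - A * b) + 1 / ν * (A * ((e4G I a)ᴴ * e4G I a)).trace.re +
        (1 - ν) * (-(2 / ν) * ((e4G I a)ᴴ * B * (I * (Kinv ν A (b * A - A * b))ᴴ)).trace.re +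
          (1 / ν) ^ 2 * ((e4G I a)ᴴ * B * e4G I a).trace.re) := by
  set Y := Kinv ν A (b * A - A * b) with hY
  set G := e4G I a with hG
  set W := Wt ν I a b A with hW
  have hν0 := hν.1
  have hν' : ν ∈ Set.Icc (0 : ℝ) 1 := ⟨hν.1.le, hν.2⟩
  have hWd : W = Y * Iᴴ - ((1 / ν : ℝ) : ℂ) • Gᴴ := rfl
  have hWh : Wᴴ = I * Yᴴ - ((1 / ν : ℝ) : ℂ) • G := by
    rw [hWd]
    simp only [conjTranspose_sub, conjTranspose_mul, conjTranspose_smul, conjTranspose_conjTranspose,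
      RCLike.star_def, Complex.conj_ofReal]
  have hq := pen_Kinv hν' hAp (b * A - A * b)
  rw [← hY] at hq
  have p1 : (B * ((I * W)ᴴ * (I * W))).trace.re = (A * (Yᴴ * Y)).trace.re -
      2 / ν * (Gᴴ * B * (I * Yᴴ)).trace.re + (1 / ν) ^ 2 * (Gᴴ * B * G).trace.re := by
    have e1 : (B * ((I * W)ᴴ * (I * W))).trace = (W * B * Wᴴ).trace := by
      rw [conjTranspose_mul, Matrix.mul_assoc, ← Matrix.mul_assoc Iᴴ, hI, Matrix.one_mul,
        ← Matrix.mul_assoc, Matrix.trace_mul_comm, Matrix.mul_assoc]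
    rw [e1, hWh, hWd]
    simp only [Matrix.sub_mul, Matrix.mul_sub, Matrix.smul_mul, Matrix.mul_smul, trace_sub,
      trace_smul, smul_eq_mul, Complex.sub_re, Complex.re_ofReal_mul]
    have e2 : (Y * Iᴴ * B * (I * Yᴴ)).trace = (A * (Yᴴ * Y)).trace := by
      have : Y * Iᴴ * B * (I * Yᴴ) = Y * (A * Yᴴ) := by
        rw [hA]; simp only [Matrix.mul_assoc]
      rw [this, Matrix.trace_mul_comm, Matrix.mul_assoc]
    have e3 : (Y * Iᴴ * B * G).trace.re = (Gᴴ * B * (I * Yᴴ)).trace.re := by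
      have h1 := conj_tr hB (I * Yᴴ) G
      rw [conjTranspose_mul, conjTranspose_conjTranspose] at h1
      exact h1
    rw [e2, e3]
    ring
  have p2 : (B * ((I * W) * (I * W)ᴴ)).trace.re = (A * (Y * Yᴴ)).trace.re +
      (1 / ν) ^ 2 * (A * (Gᴴ * G)).trace.re := by
    have e1 : (B * ((I * W) * (I * W)ᴴ)).trace = (A * (W * Wᴴ)).trace := by
      have : B * ((I * W) * (I * W)ᴴ) = (B * I * (W * Wᴴ)) * Iᴴ := by
        rw [conjTranspose_mul]; simp only [Matrix.mul_assoc]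
      rw [this, Matrix.trace_mul_comm, hA]
      simp only [Matrix.mul_assoc]
    have e2 : W * Wᴴ = Y * Yᴴ + ((1 / ν : ℝ) : ℂ) • ((1 / ν : ℝ) : ℂ) • (Gᴴ * G) := by
      rw [hWh, hWd]
      simp only [Matrix.sub_mul, Matrix.mul_sub, Matrix.smul_mul, Matrix.mul_smul]
      have f1 : Y * Iᴴ * (I * Yᴴ) = Y * Yᴴ := by
        rw [Matrix.mul_assoc, ← Matrix.mul_assoc Iᴴ, hI, Matrix.one_mul]
      have f2 : Y * Iᴴ * G = 0 := by rw [Matrix.mul_assoc, IhG hI, Matrix.mul_zero]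
      have f3 : Gᴴ * (I * Yᴴ) = 0 := by rw [← Matrix.mul_assoc, GhI hI, Matrix.zero_mul]
      rw [f1, f2, f3]
      simp
    rw [e1, e2, Matrix.mul_add, trace_add, Matrix.mul_smul, Matrix.mul_smul, trace_smul, trace_smul,
      smul_eq_mul, smul_eq_mul, Complex.add_re, Complex.re_ofReal_mul, Complex.re_ofReal_mul]
    ring
  unfold pen at hq ⊢
  rw [p1, p2, ← hq]
  field_simp
  ring

/-- `Tr W A Wᴴ`-type bound -/
theorem tr_sq_le {A : Matrix ι ι ℂ} {lam : ℝ} (hA : (A - (lam : ℂ) • (1 : Matrix ι ι ℂ)).PosSemidef)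
    (W : Matrix ι κ ℂ) : lam * (Wᴴ * W).trace.re ≤ (A * (W * Wᴴ)).trace.re := by
  have h := psd_tr (hA.conjTranspose_mul_mul_same W)
  have e : (Wᴴ * (A - (lam : ℂ) • (1 : Matrix ι ι ℂ)) * W).trace.re =
      (A * (W * Wᴴ)).trace.re - lam * (Wᴴ * W).trace.re := by
    rw [Matrix.mul_sub, Matrix.sub_mul, trace_sub, Complex.sub_re]
    congr 1
    · congr 1
      rw [Matrix.mul_assoc, Matrix.trace_mul_comm, Matrix.mul_assoc]
    · rw [Matrix.mul_smul, Matrix.smul_mul, Matrix.mul_one, trace_smul, smul_eq_mul,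
        Complex.re_ofReal_mul]
  rw [e] at h
  linarith

/-- `Tr Gᴴ B² G ≤ Tr Gᴴ B G` for `0 ≤ B ≤ 1` -/
theorem sq_le_self {B : Matrix κ κ ℂ} (hB : B.PosSemidef) (hB1 : (1 - B).PosSemidef)
    (G : Matrix κ ι ℂ) : ((B * G)ᴴ * (B * G)).trace.re ≤ (Gᴴ * B * G).trace.re := by
  -- `B - B² = B(1-B)B + (1-B)B(1-B)`
  have h1 := psd_tr ((hB1.conjTranspose_mul_mul_same B).conjTranspose_mul_mul_same G)
  have h2 := psd_tr ((hB.conjTranspose_mul_mul_same (1 - B)).conjTranspose_mul_mul_same G)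
  have e : Gᴴ * B * G - (B * G)ᴴ * (B * G) = Gᴴ * (Bᴴ * (1 - B) * B) * G +
      Gᴴ * ((1 - B)ᴴ * B * (1 - B)) * G := by
    simp only [conjTranspose_mul, conjTranspose_sub, conjTranspose_one, hB.1.eq, Matrix.mul_sub,
      Matrix.sub_mul, Matrix.mul_one, Matrix.one_mul, Matrix.mul_assoc]
    abel
  have e2 := congrArg (fun X => (Matrix.trace X).re) e
  simp only [trace_sub, trace_add, Complex.sub_re, Complex.add_re] at e2
  linarith

theorem sq_add_le {f p q : ℝ} (hp : 0 ≤ p) (hq : 0 ≤ q) (h : f ^ 2 ≤ p * (f + q)) :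
    f ≤ p + q := by
  by_contra hc
  push Not at hc
  nlinarith [mul_nonneg hp hq]

theorem sq_add_bound {p q k : ℝ} (hk : 0 < k) : (p + q) ^ 2 ≤ (1 + k) * p ^ 2 + (1 + 1 / k) * q ^ 2 := by
  have h : 0 ≤ (k * p - q) ^ 2 / k := by positivity
  have e : (k * p - q) ^ 2 / k = k * p ^ 2 - 2 * p * q + 1 / k * q ^ 2 := by
    field_simp
    ring
  rw [e] at h
  nlinarith

/-- the real-number part of the truncation lemma -/
theorem trunc_scal {F P e x yA β ν lam Fi k : ℝ} (hν0 : 0 < ν) (hν1 : 0 < 1 - ν) (hβ0 : 0 ≤ β)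
    (hF0 : 0 ≤ F) (hP0 : 0 ≤ P) (hFi0 : 0 ≤ Fi) (hlam : 0 < lam) (hk : 0 < k)
    (h2 : P = F + (1 - ν) * (-(2 / ν) * x + (1 / ν) ^ 2 * β)) (hcs : x ^ 2 ≤ β * yA)
    (hYA : (1 - ν) * yA ≤ F) (he1 : e ^ 2 ≤ β / (1 - ν) * P) (he2 : e ^ 2 ≤ β / (ν * lam) * P)
    (h3 : ∀ s : ℝ, 2 * (s * (F + e)) - s ^ 2 * P ≤ Fi) :
    F ≤ (1 + k) * Fi + (1 + 1 / k) * (2 * min (β / (1 - ν)) (β / (ν * lam)) + 2 * (β / ν ^ 2)) := by
  set q := min (β / (1 - ν)) (β / (ν * lam)) with hq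
  have hq0 : 0 ≤ q := le_min (by positivity) (by positivity)
  have he3 : e ^ 2 ≤ q * P := by
    rcases min_choice (β / (1 - ν)) (β / (ν * lam)) with h | h
    · rw [hq, h]; exact he1
    · rw [hq, h]; exact he2
  set f := Real.sqrt F with hf
  set c := Real.sqrt ((1 - ν) * β) / ν with hc
  have hf0 : 0 ≤ f := Real.sqrt_nonneg _
  have hc0 : 0 ≤ c := div_nonneg (Real.sqrt_nonneg _) hν0.le
  have hff : f ^ 2 = F := Real.sq_sqrt hF0
  have hcc : c ^ 2 = (1 - ν) * β / ν ^ 2 := by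
    rw [hc, div_pow, Real.sq_sqrt (by positivity)]
  have hPfc : P ≤ (f + c) ^ 2 := by
    have h3 : |x| * ((1 - ν) / ν) ≤ f * c := by
      refine abs_le_of_sq_le_sq' ?_ (by positivity) |>.2
      have h4 : (|x| * ((1 - ν) / ν)) ^ 2 = x ^ 2 * ((1 - ν) ^ 2 / ν ^ 2) := by
        rw [mul_pow, sq_abs, div_pow]
      have h5 : (f * c) ^ 2 = F * ((1 - ν) * β / ν ^ 2) := by rw [mul_pow, hff, hcc]
      rw [h4, h5]
      calc x ^ 2 * ((1 - ν) ^ 2 / ν ^ 2)
          ≤ (β * yA) * ((1 - ν) ^ 2 / ν ^ 2) :=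
            mul_le_mul_of_nonneg_right hcs (by positivity)
        _ = ((1 - ν) * yA) * ((1 - ν) * β / ν ^ 2) := by ring
        _ ≤ F * ((1 - ν) * β / ν ^ 2) := mul_le_mul_of_nonneg_right hYA (by positivity)
    have h7 : (1 - ν) * (-(2 / ν) * x) ≤ 2 * (f * c) := by
      have h8 : -x ≤ |x| := neg_le_abs _
      have h9 : (1 - ν) * (-(2 / ν) * x) = 2 * (-x * ((1 - ν) / ν)) := by
        field_simp
      rw [h9]
      have := mul_le_mul_of_nonneg_right h8 (by positivity : 0 ≤ (1 - ν) / ν)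
      linarith
    have h10 : (1 - ν) * ((1 / ν) ^ 2 * β) = c ^ 2 := by
      rw [hcc]; field_simp
    have h11 : (f + c) ^ 2 = F + 2 * (f * c) + c ^ 2 := by rw [← hff]; ring
    rw [h11, h2, mul_add, h10]
    linarith
  have hsqP : Real.sqrt P ≤ f + c := by
    rw [← Real.sqrt_sq (add_nonneg hf0 hc0)]
    exact Real.sqrt_le_sqrt hPfc
  have hX : F + e ≤ Real.sqrt Fi * Real.sqrt P := by
    rcases le_or_gt (F + e) 0 with h5 | h5
    · exact h5.trans (by positivity)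
    · have hPp : 0 < P := by
        rcases hP0.eq_or_lt with h6 | h6
        · exfalso
          have h7 := h3 ((Fi + 1) / (F + e))
          rw [← h6] at h7
          have h8 : 2 * ((Fi + 1) / (F + e) * (F + e)) = 2 * (Fi + 1) := by field_simp
          rw [h8] at h7
          linarith
        · exact h6
      have h7 := h3 ((F + e) / P)
      have h8 : 2 * ((F + e) / P * (F + e)) - ((F + e) / P) ^ 2 * P = (F + e) ^ 2 / P := by
        field_simp
        ring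
      rw [h8, div_le_iff₀ hPp] at h7
      rw [← Real.sqrt_mul hFi0]
      exact Real.le_sqrt_of_sq_le h7
  have hE : -e ≤ Real.sqrt q * Real.sqrt P := by
    rw [← Real.sqrt_mul hq0]
    refine Real.le_sqrt_of_sq_le ?_
    rw [neg_sq]; exact he3
  have hfin : f ^ 2 ≤ (Real.sqrt Fi + Real.sqrt q) * (f + c) := by
    rw [hff]
    have h3 : F ≤ (Real.sqrt Fi + Real.sqrt q) * Real.sqrt P := by linarith
    exact h3.trans (mul_le_mul_of_nonneg_left hsqP (by positivity))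
  have hf2 := sq_add_le (by positivity) hc0 hfin
  have hf3 : f ^ 2 ≤ (Real.sqrt Fi + (Real.sqrt q + c)) ^ 2 := by
    have : f ≤ Real.sqrt Fi + (Real.sqrt q + c) := by linarith
    exact pow_le_pow_left₀ hf0 this 2
  have hf4 := sq_add_bound (p := Real.sqrt Fi) (q := Real.sqrt q + c) hk
  rw [Real.sq_sqrt hFi0] at hf4
  have hf5 : (Real.sqrt q + c) ^ 2 ≤ 2 * q + 2 * (β / ν ^ 2) := by
    have h3 : (Real.sqrt q + c) ^ 2 ≤ 2 * (Real.sqrt q) ^ 2 + 2 * c ^ 2 := by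
      nlinarith [sq_nonneg (Real.sqrt q - c)]
    rw [Real.sq_sqrt hq0, hcc] at h3
    have h4 : (1 - ν) * β / ν ^ 2 ≤ β / ν ^ 2 := by
      refine div_le_div_of_nonneg_right ?_ (by positivity)
      nlinarith
    linarith
  rw [← hff]
  have hk1 : 0 ≤ 1 + 1 / k := by positivity
  have := mul_le_mul_of_nonneg_left hf5 hk1
  linarith

theorem tr_mov (A : Matrix ι ι ℂ) (W : Matrix ι κ ℂ) : (Wᴴ * A * W).trace = (A * (W * Wᴴ)).trace := by
  rw [Matrix.mul_assoc, Matrix.trace_mul_comm, Matrix.mul_assoc]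

theorem tr_mov' (A : Matrix ι ι ℂ) (W : Matrix κ ι ℂ) : (W * A * Wᴴ).trace = (A * (Wᴴ * W)).trace := by
  rw [Matrix.mul_assoc, Matrix.trace_mul_comm, Matrix.mul_assoc]

theorem pen_IW (hI : Iᴴ * I = 1) {B : Matrix κ κ ℂ} {A : Matrix ι ι ℂ} (hA : A = Iᴴ * B * I)
    (ν : ℝ) (W : Matrix ι κ ℂ) :
    pen ν B (I * W) = (1 - ν) * (W * B * Wᴴ).trace.re + ν * (A * (W * Wᴴ)).trace.re := by
  have hP1 : (B * ((I * W)ᴴ * (I * W))).trace = (W * B * Wᴴ).trace := by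
    rw [conjTranspose_mul, Matrix.mul_assoc, ← Matrix.mul_assoc Iᴴ, hI, Matrix.one_mul,
        ← Matrix.mul_assoc, Matrix.trace_mul_comm, Matrix.mul_assoc]
  have hP2 : (B * ((I * W) * (I * W)ᴴ)).trace = (A * (W * Wᴴ)).trace := by
    have : B * ((I * W) * (I * W)ᴴ) = (B * I * (W * Wᴴ)) * Iᴴ := by
      rw [conjTranspose_mul]; simp only [Matrix.mul_assoc]
    rw [this, Matrix.trace_mul_comm, hA]
    simp only [Matrix.mul_assoc]
  unfold pen
  rw [hP1, hP2]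

theorem err_R {B : Matrix κ κ ℂ} (hB : B.PosSemidef) {A : Matrix ι ι ℂ} (hAp : A.PosSemidef)
    {ν P : ℝ} (hν0 : 0 < ν) (hν1 : 0 < 1 - ν) (G : Matrix κ ι ℂ) (W : Matrix ι κ ℂ)
    (hPd : P = (1 - ν) * (W * B * Wᴴ).trace.re + ν * (A * (W * Wᴴ)).trace.re) :
    (Gᴴ * B * Wᴴ).trace.re ^ 2 ≤ (Gᴴ * B * G).trace.re / (1 - ν) * P := by
  have hβ0 : 0 ≤ (Gᴴ * B * G).trace.re := psd_tr (hB.conjTranspose_mul_mul_same G)
  have hL0 : 0 ≤ (A * (W * Wᴴ)).trace.re := by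
    have h := psd_tr (hAp.conjTranspose_mul_mul_same W)
    rwa [tr_mov] at h
  have h := cs_psd hB G Wᴴ
  rw [conjTranspose_conjTranspose] at h
  have h3 : (1 - ν) * (W * B * Wᴴ).trace.re ≤ P := by
    rw [hPd]; nlinarith [mul_nonneg hν0.le hL0]
  calc (Gᴴ * B * Wᴴ).trace.re ^ 2 ≤ (Gᴴ * B * G).trace.re * (W * B * Wᴴ).trace.re := h
    _ = (Gᴴ * B * G).trace.re / (1 - ν) * ((1 - ν) * (W * B * Wᴴ).trace.re) := by field_simp
    _ ≤ (Gᴴ * B * G).trace.re / (1 - ν) * P := mul_le_mul_of_nonneg_left h3 (by positivity)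

theorem err_L {B : Matrix κ κ ℂ} (hB : B.PosSemidef) (hB1 : (1 - B).PosSemidef)
    {A : Matrix ι ι ℂ} {ν P lam : ℝ} (hlam : 0 < lam)
    (hAl : (A - (lam : ℂ) • (1 : Matrix ι ι ℂ)).PosSemidef)
    (hν0 : 0 < ν) (hν1 : 0 < 1 - ν) (G : Matrix κ ι ℂ) (W : Matrix ι κ ℂ)
    (hPd : P = (1 - ν) * (W * B * Wᴴ).trace.re + ν * (A * (W * Wᴴ)).trace.re) :
    (Gᴴ * B * Wᴴ).trace.re ^ 2 ≤ (Gᴴ * B * G).trace.re / (ν * lam) * P := by
  have hβ0 : 0 ≤ (Gᴴ * B * G).trace.re := psd_tr (hB.conjTranspose_mul_mul_same G)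
  have hR0 : 0 ≤ (W * B * Wᴴ).trace.re := psd_tr (hB.mul_mul_conjTranspose_same W)
  have h := cs_psd (α := ι) (β := κ) (B := (1 : Matrix κ κ ℂ)) PosSemidef.one (B * G) Wᴴ
  rw [Matrix.mul_one, conjTranspose_conjTranspose, Matrix.mul_one] at h
  have e3 : (B * G)ᴴ * Wᴴ = Gᴴ * B * Wᴴ := by
    rw [conjTranspose_mul, hB.1.eq]
  have e4 : (W * Wᴴ).trace.re = (Wᴴ * W).trace.re := by rw [Matrix.trace_mul_comm]
  rw [e3, e4] at h
  have h3 := sq_le_self hB hB1 G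
  have h4 := tr_sq_le hAl W
  have h5 : 0 ≤ (Wᴴ * W).trace.re := by
    have := psd_tr ((PosSemidef.one (n := ι) (R := ℂ)).conjTranspose_mul_mul_same W)
    rwa [Matrix.mul_one] at this
  have h6 : ν * (lam * (Wᴴ * W).trace.re) ≤ P := by
    rw [hPd]; nlinarith [mul_nonneg hν1.le hR0]
  calc (Gᴴ * B * Wᴴ).trace.re ^ 2 ≤ ((B * G)ᴴ * (B * G)).trace.re * (Wᴴ * W).trace.re := h
    _ ≤ (Gᴴ * B * G).trace.re * (Wᴴ * W).trace.re := mul_le_mul_of_nonneg_right h3 h5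
    _ = (Gᴴ * B * G).trace.re / (ν * lam) * (ν * (lam * (Wᴴ * W).trace.re)) := by field_simp
    _ ≤ (Gᴴ * B * G).trace.re / (ν * lam) * P := mul_le_mul_of_nonneg_left h6 (by positivity)

/-- the truncation lemma, abstract form -/
theorem trunc_abs (hI : Iᴴ * I = 1) (hab : a * I = I * b) (hGb : e4G I a * b = 0)
    (hGa : (1 - I * Iᴴ) * (a * e4G I a) = 0) {B : Matrix κ κ ℂ} (hB : B.PosSemidef)
    (hB1 : (1 - B).PosSemidef) {A : Matrix ι ι ℂ} (hA : A = Iᴴ * B * I) (hAp : A.PosDef) {lam : ℝ}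
    (hlam : 0 < lam) (hAl : (A - (lam : ℂ) • (1 : Matrix ι ι ℂ)).PosSemidef) {ν : ℝ}
    (hν : ν ∈ Set.Ioo (0 : ℝ) 1) {Fi : ℝ}
    (hFi : ∀ V : Matrix κ κ ℂ, I * Iᴴ * V = V → 2 * ((a * B - B * a)ᴴ * V).trace.re - pen ν B V ≤ Fi)
    {k : ℝ} (hk : 0 < k) :
    Qf ν A (b * A - A * b) + 1 / ν * (A * ((e4G I a)ᴴ * e4G I a)).trace.re ≤
      (1 + k) * Fi + (1 + 1 / k) * (2 * min (((e4G I a)ᴴ * B * e4G I a).trace.re / (1 - ν))
        (((e4G I a)ᴴ * B * e4G I a).trace.re / (ν * lam)) +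
        2 * (((e4G I a)ᴴ * B * e4G I a).trace.re / ν ^ 2)) := by
  have hν0 := hν.1
  have hν1 : 0 < 1 - ν := by linarith [hν.2]
  have hν' : ν ∈ Set.Icc (0 : ℝ) 1 := ⟨hν.1.le, hν.2.le⟩
  have hβ0 : 0 ≤ ((e4G I a)ᴴ * B * e4G I a).trace.re := psd_tr (hB.conjTranspose_mul_mul_same _)
  have hτ : 0 ≤ (A * ((e4G I a)ᴴ * e4G I a)).trace.re := by
    have h := psd_tr (hAp.posSemidef.mul_mul_conjTranspose_same (e4G I a))
    rwa [tr_mov'] at h
  have hQ0 : 0 ≤ Qf ν A (b * A - A * b) := e1_Qf_nonneg hν' hAp _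
  have hF0 : 0 ≤ Qf ν A (b * A - A * b) + 1 / ν * (A * ((e4G I a)ᴴ * e4G I a)).trace.re := by
    have : 0 ≤ 1 / ν * (A * ((e4G I a)ᴴ * e4G I a)).trace.re := by positivity
    linarith
  have h1 := trunc_lin (B := B) hI hab hGb hGa hA (ν := ν)
  have h2 := trunc_pen (a := a) (b := b) hI hB.1 hA hAp ⟨hν.1, hν.2.le⟩
  have hrow : I * Iᴴ * (I * Wt ν I a b A) = I * Wt ν I a b A := by
    rw [Matrix.mul_assoc, ← Matrix.mul_assoc Iᴴ, hI, Matrix.one_mul]
  have hPd := pen_IW hI hA ν (Wt ν I a b A)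
  have hR0 : 0 ≤ (Wt ν I a b A * B * (Wt ν I a b A)ᴴ).trace.re :=
    psd_tr (hB.mul_mul_conjTranspose_same _)
  have hL0 : 0 ≤ (A * (Wt ν I a b A * (Wt ν I a b A)ᴴ)).trace.re := by
    have h := psd_tr (hAp.posSemidef.conjTranspose_mul_mul_same (Wt ν I a b A))
    rwa [tr_mov] at h
  have hP0 : 0 ≤ pen ν B (I * Wt ν I a b A) := by
    rw [hPd]; positivity
  have he1 := err_R hB hAp.posSemidef hν0 hν1 (e4G I a) (Wt ν I a b A) hPd
  have he2 := err_L hB hB1 hlam hAl hν0 hν1 (e4G I a) (Wt ν I a b A) hPd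
  have hcs : ((e4G I a)ᴴ * B * (I * (Kinv ν A (b * A - A * b))ᴴ)).trace.re ^ 2 ≤
      ((e4G I a)ᴴ * B * e4G I a).trace.re *
        (A * ((Kinv ν A (b * A - A * b))ᴴ * Kinv ν A (b * A - A * b))).trace.re := by
    have h := cs_psd hB (e4G I a) (I * (Kinv ν A (b * A - A * b))ᴴ)
    have e5 : ((I * (Kinv ν A (b * A - A * b))ᴴ)ᴴ * B * (I * (Kinv ν A (b * A - A * b))ᴴ)).trace =
        (A * ((Kinv ν A (b * A - A * b))ᴴ * Kinv ν A (b * A - A * b))).trace := by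
      rw [conjTranspose_mul, conjTranspose_conjTranspose, ← tr_mov', hA]
      simp only [Matrix.mul_assoc]
    rwa [e5] at h
  have hYA : (1 - ν) * (A * ((Kinv ν A (b * A - A * b))ᴴ * Kinv ν A (b * A - A * b))).trace.re ≤
      Qf ν A (b * A - A * b) + 1 / ν * (A * ((e4G I a)ᴴ * e4G I a)).trace.re := by
    have h3 := pen_Kinv hν' hAp (b * A - A * b)
    unfold pen at h3
    have h4 : 0 ≤ (A * (Kinv ν A (b * A - A * b) * (Kinv ν A (b * A - A * b))ᴴ)).trace.re := by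
      have h := psd_tr (hAp.posSemidef.conjTranspose_mul_mul_same (Kinv ν A (b * A - A * b)))
      rwa [tr_mov] at h
    have h5 : 0 ≤ 1 / ν * (A * ((e4G I a)ᴴ * e4G I a)).trace.re := by positivity
    rw [← h3]
    nlinarith [mul_nonneg hν0.le h4]
  have hFi0 : 0 ≤ Fi := by
    have := hFi 0 (by simp)
    unfold pen at this
    simpa using this
  have h3 : ∀ s : ℝ, 2 * (s * (Qf ν A (b * A - A * b) +
      1 / ν * (A * ((e4G I a)ᴴ * e4G I a)).trace.re +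
        ((e4G I a)ᴴ * B * (Wt ν I a b A)ᴴ).trace.re)) - s ^ 2 * pen ν B (I * Wt ν I a b A) ≤ Fi := by
    intro s
    have h4 := hFi ((s : ℂ) • (I * Wt ν I a b A)) (by rw [Matrix.mul_smul, hrow])
    have e6 : ((a * B - B * a)ᴴ * ((s : ℂ) • (I * Wt ν I a b A))).trace.re =
        s * ((a * B - B * a)ᴴ * (I * Wt ν I a b A)).trace.re := by
      rw [Matrix.mul_smul, trace_smul, smul_eq_mul, Complex.re_ofReal_mul]
    have e7 : pen ν B ((s : ℂ) • (I * Wt ν I a b A)) = s ^ 2 * pen ν B (I * Wt ν I a b A) := by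
      unfold pen
      have e8 : ((s : ℂ) • (I * Wt ν I a b A))ᴴ = (s : ℂ) • (I * Wt ν I a b A)ᴴ := by
        rw [conjTranspose_smul]
        congr 1
        simp
      rw [e8]
      simp only [Matrix.smul_mul, Matrix.mul_smul, trace_smul, smul_eq_mul, Complex.re_ofReal_mul]
      ring
    rw [e6, e7, h1] at h4
    exact h4
  exact trunc_scal hν0 hν1 hβ0 hF0 hP0 hFi0 hlam hk h2 hcs hYA he1 he2 h3

end abs

end

end Vale.Agent.P369Z
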